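import Mathlib

/-! Transfer-matrix estimate for the count of quadruples of paths. -/

namespace Vale.Agent.P346

open Finset

theorem sum_snoc {X M : Type*} [Fintype X] [AddCommMonoid M] (d : ℕ) (F : (Fin (d + 1) → X) → M) :
    ∑ π, F π = ∑ ρ : Fin d → X, ∑ x : X, F (Fin.snoc ρ x) := by
  rw [← Fintype.sum_equiv (Fin.snocEquiv (fun _ => X)) (fun y => F (Fin.snoc y.2 y.1)) F
    (fun y => rfl), Fintype.sum_prod_type, Finset.sum_comm]

theorem transfer {X : Type*} [Fintype X] (k : ℕ → X → X → ℝ) (ψ : ℕ → X → ℝ) (γ : ℕ → ℝ)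
    (α : X → ℝ) (hk : ∀ i v v', 0 ≤ k i v v') (hγ : ∀ i, 0 ≤ γ i) (hα : ∀ v, 0 ≤ α v)
    (step : ∀ i v, ∑ v', k i v v' * ψ (i + 1) v' ≤ γ i * ψ i v) (d : ℕ) :
    ∑ π : Fin (d + 1) → X, α (π 0) * (∏ i : Fin d, k i (π i.castSucc) (π i.succ)) *
      ψ d (π (Fin.last d)) ≤ (∏ i ∈ range d, γ i) * ∑ v, α v * ψ 0 v := by
  induction d with
  | zero =>
    rw [sum_snoc]
    simp [Fin.snoc]
  | succ d ih =>
    rw [sum_snoc, Finset.prod_range_succ, mul_comm _ (γ d), mul_assoc]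
    refine le_trans ?_ (mul_le_mul_of_nonneg_left ih (hγ d))
    rw [Finset.mul_sum]
    refine Finset.sum_le_sum fun ρ _ => ?_
    have e : ∀ x : X, α ((Fin.snoc ρ x : Fin (d + 2) → X) 0) *
        (∏ i : Fin (d + 1), k i ((Fin.snoc ρ x : Fin (d + 2) → X) i.castSucc)
          ((Fin.snoc ρ x : Fin (d + 2) → X) i.succ)) *
        ψ (d + 1) ((Fin.snoc ρ x : Fin (d + 2) → X) (Fin.last (d + 1))) =
        α (ρ 0) * (∏ i : Fin d, k i (ρ i.castSucc) (ρ i.succ)) *
          (k d (ρ (Fin.last d)) x * ψ (d + 1) x) := by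
      intro x
      rw [Fin.prod_univ_castSucc]
      have e0 : (Fin.snoc ρ x : Fin (d + 2) → X) 0 = ρ 0 := by
        rw [← Fin.castSucc_zero, Fin.snoc_castSucc]
      simp only [Fin.snoc_castSucc, Fin.succ_castSucc, Fin.succ_last, Fin.snoc_last, e0,
        Fin.val_castSucc, Fin.val_last]
      ring
    simp only [e]
    rw [← Finset.mul_sum]
    have h0 : 0 ≤ α (ρ 0) * (∏ i : Fin d, k i (ρ i.castSucc) (ρ i.succ)) :=
      mul_nonneg (hα _) (Finset.prod_nonneg fun _ _ => hk _ _ _)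
    calc _ ≤ α (ρ 0) * (∏ i : Fin d, k i (ρ i.castSucc) (ρ i.succ)) *
          (γ d * ψ d (ρ (Fin.last d))) := mul_le_mul_of_nonneg_left (step d _) h0
      _ = _ := by ring

variable {Y : Type*} [DecidableEq Y]

/-- indicator of the first pairing -/
noncomputable def iF (v : Y × Y × Y × Y) : ℝ := if v.1 = v.2.2.2 ∧ v.2.1 = v.2.2.1 then 1 else 0

/-- indicator of the second pairing -/
noncomputable def iB (v : Y × Y × Y × Y) : ℝ := if v.1 = v.2.1 ∧ v.2.2.1 = v.2.2.2 then 1 else 0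

/-- one-layer kernel -/
noncomputable def kern (ω : ℝ) (v v' : Y × Y × Y × Y) : ℝ :=
  (ω + 1)⁻¹ * (iF v * iB v * (iF v' * iB v') + (ω + 1)⁻¹ * (iF v * iF v') +
    ω * (ω + 1)⁻¹ * (iB v * iB v'))

/-- potential -/
noncomputable def pot (Λ b : ℝ) (v : Y × Y × Y × Y) : ℝ := iF v + b * iB v + (1 + Λ) * (iF v * iB v)

theorem iF_nonneg (v : Y × Y × Y × Y) : 0 ≤ iF v := by
  unfold iF; split_ifs <;> norm_num

theorem iB_nonneg (v : Y × Y × Y × Y) : 0 ≤ iB v := by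
  unfold iB; split_ifs <;> norm_num

theorem iF_sq (v : Y × Y × Y × Y) : iF v * iF v = iF v := by
  unfold iF; split_ifs <;> norm_num

theorem iB_sq (v : Y × Y × Y × Y) : iB v * iB v = iB v := by
  unfold iB; split_ifs <;> norm_num

theorem kern_nonneg {ω : ℝ} (hω : 0 < ω) (v v' : Y × Y × Y × Y) : 0 ≤ kern ω v v' := by
  have := iF_nonneg v
  have := iF_nonneg v'
  have := iB_nonneg v
  have := iB_nonneg v'
  unfold kern
  positivity

variable [Fintype Y]

theorem sum_iF : ∑ v : Y × Y × Y × Y, iF v = (Fintype.card Y : ℝ) ^ 2 := by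
  simp [iF, Fintype.sum_prod_type, ite_and, sq]

theorem sum_iB : ∑ v : Y × Y × Y × Y, iB v = (Fintype.card Y : ℝ) ^ 2 := by
  simp only [iB, Fintype.sum_prod_type, ite_and]
  simp [Finset.sum_ite_irrel, sq]

theorem sum_iFB : ∑ v : Y × Y × Y × Y, iF v * iB v = (Fintype.card Y : ℝ) := by
  have : ∀ v : Y × Y × Y × Y, iF v * iB v =
      if v.1 = v.2.1 then if v.1 = v.2.2.1 then if v.1 = v.2.2.2 then 1 else 0 else 0 else 0 := by
    rintro ⟨a, b, c, e⟩
    simp only [iF, iB]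
    by_cases h1 : a = b <;> by_cases h2 : a = c <;> by_cases h3 : a = e <;> simp_all
  simp only [this, Fintype.sum_prod_type]
  simp [Finset.sum_ite_irrel]

theorem kern_step {ω Λ b b' : ℝ} (hω : 0 < ω) (hb : b' * ω = b) (hb1 : 1 ≤ b') (hb2 : b' ≤ Λ)
    (hw : 2 * (ω + 1) ≤ Fintype.card Y) (v : Y × Y × Y × Y) :
    ∑ v', kern ω v v' * pot Λ b' v' ≤
      ((Fintype.card Y : ℝ) ^ 2 * (ω + 1)⁻¹ ^ 2 * (1 + 4 * Λ / Fintype.card Y)) * pot Λ b v := by
  set w : ℝ := (Fintype.card Y : ℝ) with hwdef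
  set φ := (ω + 1)⁻¹ with hφ
  have hφ0 : 0 < φ := by positivity
  have hw0 : 0 < w := by linarith
  have hφw : 2 ≤ w * φ := by
    rw [hφ, ← div_eq_mul_inv, le_div_iff₀ (by positivity)]
    exact hw
  have e : ∀ v' : Y × Y × Y × Y, kern ω v v' * pot Λ b' v' =
      (φ * (iF v * iB v * (2 + b' + Λ) + φ * iF v * (b' + 1 + Λ) + ω * φ * iB v * (2 + Λ))) *
        (iF v' * iB v') + (φ * φ * iF v) * iF v' + (φ * φ * ω * b' * iB v) * iB v' := by
    intro v'
    have h1 := iF_sq v'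
    have h2 := iB_sq v'
    unfold kern pot
    rw [← hφ]
    generalize iF v' = x at *
    generalize iB v' = y at *
    have h3 : x * y * x = x * y := by rw [mul_right_comm, h1]
    have h4 : x * y * y = x * y := by rw [mul_assoc, h2]
    have h5 : x * y * (x * y) = x * y := by rw [← mul_assoc, h3, h4]
    linear_combination (φ * iF v * iB v) * h3 + (φ * iF v * iB v * b') * h4 +
      (φ * iF v * iB v * (1 + Λ)) * h5 + (φ * φ * iF v) * h1 +
      (φ * φ * iF v * (1 + Λ)) * h3 + (φ * φ * ω * b' * iB v) * h2 +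
      (φ * φ * ω * iB v * (1 + Λ)) * h4
  simp only [e, Finset.sum_add_distrib, ← Finset.mul_sum, sum_iF, sum_iB, sum_iFB]
  rw [← hwdef]
  have e2 : w ^ 2 * φ ^ 2 * (1 + 4 * Λ / w) = φ * φ * (w ^ 2 + 4 * Λ * w) := by
    field_simp
  rw [e2]
  unfold pot
  have hF := iF_nonneg v
  have hB := iB_nonneg v
  generalize iF v = x at *
  generalize iB v = y at *
  have hΛ : 1 ≤ Λ := le_trans hb1 hb2
  have t1 : φ * (x * y * (2 + b' + Λ)) * w ≤ φ * φ * (w ^ 2 + 4 * Λ * w) * ((1 + Λ) * (x * y)) := by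
    have : (2 + b' + Λ) ≤ φ * (w + 4 * Λ) * (1 + Λ) := by
      have : 2 ≤ φ * (w + 4 * Λ) := by nlinarith
      nlinarith
    have h0 : 0 ≤ φ * w * (x * y) := by positivity
    nlinarith [mul_le_mul_of_nonneg_left this h0]
  have t2 : φ * (φ * x * (b' + 1 + Λ)) * w + φ * φ * x * w ^ 2 ≤
      φ * φ * (w ^ 2 + 4 * Λ * w) * x := by
    have : b' + 1 + Λ ≤ 4 * Λ := by linarith
    have h0 : 0 ≤ φ * φ * w * x := by positivity
    nlinarith [mul_le_mul_of_nonneg_left this h0]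
  have t3 : φ * (ω * φ * y * (2 + Λ)) * w + φ * φ * ω * b' * y * w ^ 2 ≤
      φ * φ * (w ^ 2 + 4 * Λ * w) * (b * y) := by
    rw [← hb]
    have : 2 + Λ ≤ 4 * Λ * b' := by nlinarith
    have h0 : 0 ≤ φ * φ * w * ω * y := by positivity
    nlinarith [mul_le_mul_of_nonneg_left this h0]
  nlinarith

end Vale.Agent.P346
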