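import Vale.Agent.P346.Defs
import Vale.Agent.P346.Transfer

/-! The standard construction: an upper bound on the circuit size. -/

namespace Vale.Agent.P346

open Finset MvPolynomial

theorem exists_circuit {σ K : Type*} [Field K] {A0 A1 A2 A3 A4 : Type}
    [Fintype A0] [Fintype A1] [Fintype A2] [Fintype A3] [Fintype A4]
    (leaf : A0 → σ ⊕ K) (in1 : A1 → Finset A0) (in2 : A2 → Multiset A1) (in3 : A3 → Finset A2)
    (in4 : A4 → Multiset A3) (in5 : Finset A4) (d1 : A1 → ℕ) (d3 : A3 → ℕ) (d5 : ℕ)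
    (h1 : ∀ j, ∀ i ∈ in1 j, (leaf i).elim (fun _ => 1) (fun _ => 0) = d1 j)
    (h3 : ∀ j, ∀ i ∈ in3 j, ((in2 i).map d1).sum = d3 j)
    (h5 : ∀ i ∈ in5, ((in4 i).map d3).sum = d5) :
    ∃ G : Circuit σ K, G.SynHom ∧
      G.value = ∑ i ∈ in5, ((in4 i).map fun j => ∑ k ∈ in3 j,
        ((in2 k).map fun a => ∑ b ∈ in1 a, ((leaf b).elim X C : MvPolynomial σ K)).prod).prod ∧
      G.size = Fintype.card A0 + Fintype.card A1 + Fintype.card A2 + Fintype.card A3 +
        Fintype.card A4 + 1 := by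
  let e0 := Fintype.equivFin A0
  let e1 := Fintype.equivFin A1
  let e2 := Fintype.equivFin A2
  let e3 := Fintype.equivFin A3
  let e4 := Fintype.equivFin A4
  refine ⟨⟨_, _, _, _, _, fun i => leaf (e0.symm i),
    fun j => (in1 (e1.symm j)).map e0.toEmbedding, fun _ _ => 1,
    fun j => (in2 (e2.symm j)).map e1,
    fun j => (in3 (e3.symm j)).map e2.toEmbedding, fun _ _ => 1,
    fun j => (in4 (e4.symm j)).map e3, in5.map e4.toEmbedding, fun _ => 1⟩,
    ⟨fun j => d1 (e1.symm j), fun j => d3 (e3.symm j), d5, ?_, ?_, ?_⟩, ?_, rfl⟩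
  · intro j i hi
    simp only [Finset.mem_map_equiv] at hi
    exact h1 _ _ hi
  · intro j i hi
    simp only [Finset.mem_map_equiv] at hi
    simpa [Multiset.map_map] using h3 _ _ hi
  · intro i hi
    simp only [Finset.mem_map_equiv] at hi
    simpa [Multiset.map_map] using h5 _ hi
  · simp [Circuit.value, Circuit.val4, Circuit.val3, Circuit.val2, Circuit.val1, Circuit.val0,
      Multiset.map_map, Function.comp_def]

/-- ordered product of the first `d` matrices -/
def mp {Y M : Type*} [Fintype Y] [DecidableEq Y] [CommSemiring M] (A : ℕ → Matrix Y Y M) (d : ℕ) :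
    Matrix Y Y M := ((List.range d).map A).prod

section mp
variable {Y M : Type*} [Fintype Y] [DecidableEq Y] [CommSemiring M]

theorem mp_succ (A : ℕ → Matrix Y Y M) (d : ℕ) : mp A (d + 1) = mp A d * A d := by
  simp [mp, List.range_succ]

theorem mp_apply (A : ℕ → Matrix Y Y M) (d : ℕ) (u v : Y) :
    mp A d u v = ∑ π : Fin (d + 1) → Y, if π 0 = u ∧ π (Fin.last d) = v then
      ∏ i : Fin d, A i (π i.castSucc) (π i.succ) else 0 := by
  induction d generalizing v with
  | zero =>
    rw [sum_snoc]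
    simp [Fin.snoc, mp, Matrix.one_apply, ite_and, eq_comm]
  | succ d ih =>
    rw [sum_snoc, mp_succ, Matrix.mul_apply]
    simp only [ih, Finset.sum_mul]
    rw [Finset.sum_comm]
    refine Finset.sum_congr rfl fun ρ _ => ?_
    have e0 : ∀ x, (Fin.snoc ρ x : Fin (d + 2) → Y) 0 = ρ 0 := by
      intro x
      rw [← Fin.castSucc_zero, Fin.snoc_castSucc]
    simp only [Fin.prod_univ_castSucc, Fin.snoc_castSucc, Fin.succ_castSucc, Fin.succ_last,
      Fin.snoc_last, e0, Fin.val_castSucc, Fin.val_last]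
    by_cases h : ρ 0 = u <;> simp [h]

theorem mp_add (A : ℕ → Matrix Y Y M) (d t : ℕ) :
    mp A (d + t) = mp A d * mp (fun j => A (d + j)) t := by
  simp [mp, List.range_add, Function.comp_def]

theorem mp_block (A : ℕ → Matrix Y Y M) (r k : ℕ) :
    mp A (k * r) = mp (fun b => mp (fun j => A (b * r + j)) r) k := by
  induction k with
  | zero => simp [mp]
  | succ k ih => rw [mp_succ, ← ih, Nat.succ_mul, mp_add]

theorem mp_pad (A : ℕ → Matrix Y Y M) (n : ℕ) (h : ∀ i, n ≤ i → A i = 1) (t : ℕ) :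
    mp A (n + t) = mp A n := by
  induction t with
  | zero => rfl
  | succ t ih => rw [← add_assoc, mp_succ, ih, h _ (by omega), mul_one]

end mp

theorem exists_small (K : Type*) [Field K] (n r : ℕ) (hn : 0 < n) (hr : n ≤ r * r) :
    ∃ G : Circuit (Fin n × Fin n × Fin n) K, G.SynHom ∧ G.value = IMM K n n ∧
      G.size = r * (r * (n * n)) + r * (r * (n * n)) + r * n ^ (r + 1) + r * (n * n) +
        n ^ (r + 1) + 1 := by
  classical
  set z : Fin n := ⟨0, hn⟩ with hz
  obtain ⟨G, hG1, hG2, hG3⟩ := exists_circuit (σ := Fin n × Fin n × Fin n) (K := K)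
    (A0 := Fin r × Fin r × Fin n × Fin n) (A1 := Fin r × Fin r × Fin n × Fin n)
    (A2 := Fin r × (Fin (r + 1) → Fin n)) (A3 := Fin r × Fin n × Fin n)
    (A4 := Fin (r + 1) → Fin n)
    (fun a => if h : a.1 * r + a.2.1 < n then Sum.inl (⟨_, h⟩, a.2.2.1, a.2.2.2)
      else Sum.inr (if a.2.2.1 = a.2.2.2 then 1 else 0))
    (fun a => {a})
    (fun k => (univ : Finset (Fin r)).val.map fun j => (k.1, j, k.2 j.castSucc, k.2 j.succ))
    (fun a => univ.filter fun k => k.1 = a.1 ∧ k.2 0 = a.2.1 ∧ k.2 (Fin.last r) = a.2.2)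
    (fun β => (univ : Finset (Fin r)).val.map fun b => (b, β b.castSucc, β b.succ))
    (univ.filter fun β => β 0 = z ∧ β (Fin.last r) = z)
    (fun a => if a.1 * r + a.2.1 < n then 1 else 0)
    (fun a => ∑ j : Fin r, if a.1 * r + j < n then 1 else 0)
    (∑ b : Fin r, ∑ j : Fin r, if b * r + j < n then 1 else 0)
    (by
      intro j i hi
      rw [Finset.mem_singleton] at hi
      subst hi
      split_ifs <;> simp)
    (by
      intro j i hi
      rw [← (Finset.mem_filter.mp hi).2.1, Multiset.map_map]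
      rfl)
    (by
      intro i _
      rw [Multiset.map_map]
      rfl)
  refine ⟨G, hG1, ?_, by simpa using hG3⟩
  set A : ℕ → Matrix (Fin n) (Fin n) (MvPolynomial (Fin n × Fin n × Fin n) K) :=
    fun i => Matrix.of fun u v => if h : i < n then X (⟨i, h⟩, u, v)
      else C (if u = v then 1 else 0) with hA
  have e1 : IMM K n n = mp A n z z := by
    rw [mp_apply, IMM, Finset.sum_filter]
    refine Finset.sum_congr rfl fun π _ => ?_
    simp [hA, hz, Fin.ext_iff]
  have e2 : mp A n = mp A (r * r) := by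
    obtain ⟨t, ht⟩ := Nat.exists_eq_add_of_le hr
    rw [ht, mp_pad]
    intro i hi
    ext u v
    simp only [hA, Matrix.of_apply, dif_neg (not_lt.mpr hi), Matrix.one_apply]
    split_ifs <;> simp
  rw [hG2, e1, e2, mp_block, mp_apply, Finset.sum_filter]
  refine Finset.sum_congr rfl fun β _ => ?_
  refine if_congr Iff.rfl ?_ rfl
  rw [Multiset.map_map]
  refine Finset.prod_congr rfl fun b _ => ?_
  rw [mp_apply, Function.comp_apply, Finset.sum_filter, Fintype.sum_prod_type,
    Finset.sum_eq_single b]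
  · refine Finset.sum_congr rfl fun ρ _ => ?_
    simp only [true_and]
    refine if_congr Iff.rfl ?_ rfl
    rw [Multiset.map_map]
    refine Finset.prod_congr rfl fun j _ => ?_
    simp only [Function.comp_apply, Finset.sum_singleton, hA, Matrix.of_apply]
    split_ifs <;> simp
  · intro b' _ hb
    simp [hb]
  · simp

theorem sK_upper (K : Type*) [Field K] (n : ℕ) (hn : 25 ≤ n) :
    (sK K n : ℝ) ≤ (n : ℝ) ^ (2 * Real.sqrt n) := by
  set r := Nat.sqrt n + 1 with hr
  have hr1 : n ≤ r * r := (Nat.lt_succ_sqrt n).le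
  have hr2 : r ≤ n := Nat.succ_le_of_lt (Nat.sqrt_lt_self (by omega))
  obtain ⟨G, h1, h2, h3⟩ := exists_small K n r (by omega) hr1
  have h4 : sK K n ≤ G.size := Nat.sInf_le ⟨G, h1, h2, rfl⟩
  have hp : ∀ k, k ≤ r + 3 → n ^ k ≤ n ^ (r + 3) := fun k hk => Nat.pow_le_pow_right (by omega) hk
  have a1 : r * (r * (n * n)) ≤ n ^ (r + 3) := by
    refine le_trans ?_ (hp 4 (by omega))
    calc r * (r * (n * n)) ≤ n * (n * (n * n)) := by gcongr
      _ = n ^ 4 := by ring
  have a2 : r * n ^ (r + 1) ≤ n ^ (r + 3) := by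
    refine le_trans ?_ (hp (r + 2) (by omega))
    calc r * n ^ (r + 1) ≤ n * n ^ (r + 1) := by gcongr
      _ = n ^ (r + 2) := by ring
  have a3 : r * (n * n) ≤ n ^ (r + 3) := by
    refine le_trans ?_ (hp 3 (by omega))
    calc r * (n * n) ≤ n * (n * n) := by gcongr
      _ = n ^ 3 := by ring
  have a4 := hp (r + 1) (by omega)
  have a5 := hp 0 (by omega)
  rw [pow_zero] at a5
  have h5 : sK K n ≤ n ^ (r + 4) := by
    have : 6 * n ^ (r + 3) ≤ n * n ^ (r + 3) := Nat.mul_le_mul_right _ (by omega)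
    rw [pow_succ' n (r + 3)]
    omega
  have hn1 : (1 : ℝ) ≤ n := by exact_mod_cast (by omega : 1 ≤ n)
  have h6 : (sK K n : ℝ) ≤ (n : ℝ) ^ ((r + 4 : ℕ) : ℝ) := by
    rw [Real.rpow_natCast]
    exact_mod_cast h5
  refine le_trans h6 (Real.rpow_le_rpow_of_exponent_le hn1 ?_)
  have h7 : ((Nat.sqrt n : ℕ) : ℝ) ≤ Real.sqrt n := by
    refine Real.le_sqrt_of_sq_le ?_
    rw [sq]
    exact_mod_cast Nat.sqrt_le n
  have h8 : (5 : ℝ) ≤ Real.sqrt n := by
    refine Real.le_sqrt_of_sq_le ?_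
    have : (25 : ℝ) ≤ n := by exact_mod_cast hn
    linarith
  rw [hr]
  push_cast
  linarith

end Vale.Agent.P346
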