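import Mathlib

/-! Depth-five circuits, syntactic homogeneity, iterated matrix multiplication. -/

namespace Vale.Agent.P346

open MvPolynomial

/-- A five-layer circuit (sum, product, sum, product, sum from the output down) over leaves.
`n0` leaves, `n1` bottom sum gates, `n2` lower product gates, `n3` middle sum gates,
`n4` upper product gates, and one output sum gate.  A sum gate has a finite set of inputs in the
layer below and a coefficient for each; a product gate has a multiset of inputs. -/
structure Circuit (σ K : Type*) where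
  n0 : ℕ
  n1 : ℕ
  n2 : ℕ
  n3 : ℕ
  n4 : ℕ
  leaf : Fin n0 → σ ⊕ K
  in1 : Fin n1 → Finset (Fin n0)
  c1 : Fin n1 → Fin n0 → K
  in2 : Fin n2 → Multiset (Fin n1)
  in3 : Fin n3 → Finset (Fin n2)
  c3 : Fin n3 → Fin n2 → K
  in4 : Fin n4 → Multiset (Fin n3)
  in5 : Finset (Fin n4)
  c5 : Fin n4 → K

namespace Circuit

variable {σ K : Type*} [Field K] (G : Circuit σ K)

/-- polynomial at a leaf -/
noncomputable def val0 (i : Fin G.n0) : MvPolynomial σ K := (G.leaf i).elim X C

/-- polynomial at a bottom sum gate -/
noncomputable def val1 (j : Fin G.n1) : MvPolynomial σ K := ∑ i ∈ G.in1 j, G.c1 j i • G.val0 i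

/-- polynomial at a lower product gate -/
noncomputable def val2 (j : Fin G.n2) : MvPolynomial σ K := ((G.in2 j).map G.val1).prod

/-- polynomial at a middle sum gate -/
noncomputable def val3 (j : Fin G.n3) : MvPolynomial σ K := ∑ i ∈ G.in3 j, G.c3 j i • G.val2 i

/-- polynomial at an upper product gate -/
noncomputable def val4 (j : Fin G.n4) : MvPolynomial σ K := ((G.in4 j).map G.val3).prod

/-- polynomial at the output gate -/
noncomputable def value : MvPolynomial σ K := ∑ i ∈ G.in5, G.c5 i • G.val4 i

/-- number of vertices -/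
def size : ℕ := G.n0 + G.n1 + G.n2 + G.n3 + G.n4 + 1

/-- formal degree of a leaf: variables one, constants zero -/
def deg0 (i : Fin G.n0) : ℕ := (G.leaf i).elim (fun _ => 1) (fun _ => 0)

/-- syntactic homogeneity: the sum gates have formal degrees `d1`, `d3`, `d5` such that all inputs
of a sum gate have its degree, where a product gate has the sum of its input degrees -/
def SynHom : Prop :=
  ∃ (d1 : Fin G.n1 → ℕ) (d3 : Fin G.n3 → ℕ) (d5 : ℕ),
    (∀ j, ∀ i ∈ G.in1 j, G.deg0 i = d1 j) ∧
    (∀ j, ∀ i ∈ G.in3 j, ((G.in2 i).map d1).sum = d3 j) ∧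
    (∀ i ∈ G.in5, ((G.in4 i).map d3).sum = d5)

end Circuit

/-- iterated matrix multiplication: the sum over index sequences starting and ending at the first
index of the product of the variables `x (i, u, v)`, the `(u, v)` entry of the `i`-th matrix -/
noncomputable def IMM (K : Type*) [Field K] (w d : ℕ) : MvPolynomial (Fin d × Fin w × Fin w) K :=
  ∑ π ∈ Finset.univ.filter
      (fun π : Fin (d + 1) → Fin w => (π 0).val = 0 ∧ (π (Fin.last d)).val = 0),
    ∏ i : Fin d, X (i, π i.castSucc, π i.succ)

/-- least size of a syntactically homogeneous depth-five circuit for `IMM` with `w = d = n` -/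
noncomputable def sK (K : Type*) [Field K] (n : ℕ) : ℕ :=
  sInf {s | ∃ G : Circuit (Fin n × Fin n × Fin n) K,
    G.SynHom ∧ G.value = IMM K n n ∧ G.size = s}

end Vale.Agent.P346
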