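import Vale.Agent.P346.Mat
import Vale.Agent.P346.Defs
import Vale.Agent.P346.Transfer

/-! The measure of iterated matrix multiplication is large (characteristic zero). -/

namespace Vale.Agent.P346

open Finset MvPolynomial

section general
variable {σ : Type*} [Fintype σ] [DecidableEq σ]

theorem sum_forced (ω : σ → ℝ) (A B : Finset σ) :
    ∑ S : Finset σ, (if (∀ v ∈ A, v ∉ S) ∧ (∀ v ∈ B, v ∈ S) then ∏ v ∈ S, ω v else 0) =
      ∏ v, ((if v ∈ A then 0 else ω v) + (if v ∈ B then 0 else 1)) := by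
  rw [Finset.prod_add, Finset.powerset_univ]
  refine Finset.sum_congr rfl fun S _ => ?_
  split_ifs with h
  · have h1 : ∏ v ∈ S, (if v ∈ A then 0 else ω v) = ∏ v ∈ S, ω v :=
      Finset.prod_congr rfl fun v hv => if_neg fun hA => h.1 v hA hv
    have h2 : ∏ v ∈ univ \ S, (if v ∈ B then (0 : ℝ) else 1) = 1 :=
      Finset.prod_eq_one fun v hv => if_neg fun hB => (Finset.mem_sdiff.mp hv).2 (h.2 v hB)
    rw [h1, h2, mul_one]
  · rw [not_and_or] at h
    rcases h with h | h
    · push Not at h
      obtain ⟨v, hA, hS⟩ := h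
      have h1 : ∏ v ∈ S, (if v ∈ A then 0 else ω v) = 0 := Finset.prod_eq_zero hS (if_pos hA)
      rw [h1, zero_mul]
    · push Not at h
      obtain ⟨v, hB, hS⟩ := h
      have h1 : ∏ v ∈ univ \ S, (if v ∈ B then (0 : ℝ) else 1) = 0 :=
        Finset.prod_eq_zero (i := v) (by simp [hS]) (if_pos hB)
      rw [h1, mul_zero]

omit [Fintype σ] [DecidableEq σ] in
theorem exp_LS (l : σ → ℤ) (lam : ℝ) (S : Finset σ) :
    Real.exp (lam * LS l S) = ∏ v ∈ S, Real.exp (lam * l v) := by
  rw [LS, ← Real.exp_sum]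
  push_cast
  rw [Finset.mul_sum]

theorem Z0_eq (l : σ → ℤ) (lam : ℝ) : Z0 l lam = ∏ v, (Real.exp (lam * l v) + 1) := by
  have := sum_forced (fun v => Real.exp (lam * l v)) ∅ ∅
  simp only [Finset.notMem_empty, false_imp_iff, implies_true, and_self, if_true, if_false] at this
  rw [← this, Z0]
  simp only [exp_LS]

/-- relative weight of a variable under the constraints -/
noncomputable def rr (ω : σ → ℝ) (A B : Finset σ) (v : σ) : ℝ :=
  ((if v ∈ A then 0 else ω v) + (if v ∈ B then 0 else 1)) * (ω v + 1)⁻¹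

theorem sum_forced' (l : σ → ℤ) (lam : ℝ) (A B : Finset σ) :
    ∑ S : Finset σ, (if (∀ v ∈ A, v ∉ S) ∧ (∀ v ∈ B, v ∈ S) then Real.exp (lam * LS l S) else 0) =
      Z0 l lam * ∏ v, rr (fun v => Real.exp (lam * l v)) A B v := by
  simp only [exp_LS]
  rw [sum_forced, Z0_eq, ← Finset.prod_mul_distrib]
  refine Finset.prod_congr rfl fun v _ => ?_
  unfold rr
  have : 0 < Real.exp (lam * l v) + 1 := by positivity
  field_simp

omit [Fintype σ] in
theorem rr_nonneg {ω : σ → ℝ} (hω : ∀ v, 0 < ω v) (A B : Finset σ) (v : σ) : 0 ≤ rr ω A B v := by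
  have := hω v
  unfold rr
  split_ifs <;> positivity

omit [Fintype σ] in
theorem rr_le_one {ω : σ → ℝ} (hω : ∀ v, 0 < ω v) (A B : Finset σ) (v : σ) : rr ω A B v ≤ 1 := by
  have := hω v
  unfold rr
  rw [← div_eq_mul_inv, div_le_one (by positivity)]
  split_ifs <;> linarith

omit [Fintype σ] in
theorem rr_le_A {ω : σ → ℝ} (hω : ∀ v, 0 < ω v) {A : Finset σ} (B : Finset σ) {v : σ} (hv : v ∈ A) :
    rr ω A B v ≤ (ω v + 1)⁻¹ := by
  have := hω v
  unfold rr
  rw [if_pos hv]
  have h1 : 0 < (ω v + 1)⁻¹ := by positivity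
  split_ifs <;> nlinarith

omit [Fintype σ] in
theorem rr_le_B {ω : σ → ℝ} (hω : ∀ v, 0 < ω v) (A : Finset σ) {B : Finset σ} {v : σ} (hv : v ∈ B) :
    rr ω A B v ≤ ω v * (ω v + 1)⁻¹ := by
  have := hω v
  unfold rr
  rw [if_pos hv]
  have h1 : 0 < (ω v + 1)⁻¹ := by positivity
  split_ifs <;> nlinarith

omit [DecidableEq σ] in
theorem regroup (l : σ → ℤ) (lam : ℝ) (R : Finset ℤ) (hR : ∀ S, LS l S ∈ R) (F : Finset σ → ℝ) :
    ∑ x ∈ R, Real.exp (lam * x) * ∑ S, (if LS l S = x then F S else 0) =
      ∑ S, Real.exp (lam * LS l S) * F S := by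
  simp only [Finset.mul_sum]
  rw [Finset.sum_comm]
  refine Finset.sum_congr rfl fun S _ => ?_
  rw [Finset.sum_eq_single (LS l S)]
  · simp
  · intro x _ hx
    simp [Ne.symm hx]
  · intro h
    exact absurd (hR S) h

theorem sum_ite_le_one {α : Type*} [Fintype α] (p : α → Prop) [DecidablePred p]
    (h : ∀ a b, p a → p b → a = b) : ∑ a, (if p a then (1 : ℝ) else 0) ≤ 1 := by
  rw [Finset.sum_boole]
  have : (univ.filter p).card ≤ 1 := Finset.card_le_one.mpr fun a ha b hb =>
    h a b (Finset.mem_filter.mp ha).2 (Finset.mem_filter.mp hb).2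
  exact_mod_cast this

/-- indicator of an identity between exponent vectors -/
noncomputable def J (T E S : Finset σ) : ℝ := if ind T = ind E + ind S then 1 else 0

omit [Fintype σ] in
theorem J_nonneg (T E S : Finset σ) : 0 ≤ J T E S := by
  unfold J; split_ifs <;> norm_num

omit [Fintype σ] in
theorem J_le_one (T E S : Finset σ) : J T E S ≤ 1 := by
  unfold J; split_ifs <;> norm_num

theorem quad_bound (S E1 E2 E3 E4 : Finset σ) :
    ∑ S', ∑ T, ∑ T', J T E1 S * J T E4 S' * (J T' E2 S * J T' E3 S') ≤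
      if ind E1 + ind E3 = ind E2 + ind E4 then
        (if (∀ v ∈ E1 ∪ E2, v ∉ S) ∧ (∀ v ∈ E4 \ E1, v ∈ S) then 1 else 0) else 0 := by
  have key : ∀ S' T T', J T E1 S * J T E4 S' * (J T' E2 S * J T' E3 S') ≠ 0 →
      ind E1 + ind E3 = ind E2 + ind E4 ∧ (∀ v ∈ E1 ∪ E2, v ∉ S) ∧ (∀ v ∈ E4 \ E1, v ∈ S) := by
    intro S' T T' h
    simp only [J, ne_eq, mul_eq_zero, ite_eq_right_iff, one_ne_zero, imp_false, not_or,
      not_not] at h
    obtain ⟨⟨h1, h4⟩, h2, h3⟩ := h
    refine ⟨?_, ?_, ?_⟩
    · ext v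
      have a1 := congrArg (fun m => m v) h1
      have a2 := congrArg (fun m => m v) h2
      have a3 := congrArg (fun m => m v) h3
      have a4 := congrArg (fun m => m v) h4
      simp only [Finsupp.add_apply] at a1 a2 a3 a4 ⊢
      omega
    · intro v hv hS
      have a1 := congrArg (fun m => m v) h1
      have a2 := congrArg (fun m => m v) h2
      simp only [Finsupp.add_apply, ind_apply, if_pos hS] at a1 a2
      rcases Finset.mem_union.mp hv with hv | hv
      · rw [if_pos hv] at a1
        split_ifs at a1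
        omega
      · rw [if_pos hv] at a2
        split_ifs at a2
        omega
    · intro v hv
      by_contra hS
      obtain ⟨hv4, hv1⟩ := Finset.mem_sdiff.mp hv
      have a1 := congrArg (fun m => m v) h1
      have a4 := congrArg (fun m => m v) h4
      simp only [Finsupp.add_apply, ind_apply, if_neg hS, if_pos hv4, if_neg hv1] at a1 a4
      omega
  by_cases hc : ind E1 + ind E3 = ind E2 + ind E4 ∧ (∀ v ∈ E1 ∪ E2, v ∉ S) ∧
      (∀ v ∈ E4 \ E1, v ∈ S)
  · rw [if_pos hc.1, if_pos hc.2]
    have b1 : ∑ T, J T E1 S ≤ 1 := sum_ite_le_one _ fun a b ha hb => ind_inj (ha.trans hb.symm)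
    have b2 : ∑ T, J T E2 S ≤ 1 := sum_ite_le_one _ fun a b ha hb => ind_inj (ha.trans hb.symm)
    have b3 : ∀ T, ∑ S', J T E4 S' ≤ 1 := fun T => sum_ite_le_one _ fun a b ha hb =>
      ind_inj (add_left_cancel (ha.symm.trans hb))
    rw [Finset.sum_comm]
    refine le_trans (Finset.sum_le_sum fun T _ => ?_) b1
    calc ∑ S', ∑ T', J T E1 S * J T E4 S' * (J T' E2 S * J T' E3 S')
        ≤ ∑ S', J T E1 S * J T E4 S' := by
          refine Finset.sum_le_sum fun S' _ => ?_
          rw [← Finset.mul_sum]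
          refine mul_le_of_le_one_right (mul_nonneg (J_nonneg _ _ _) (J_nonneg _ _ _)) ?_
          refine le_trans (Finset.sum_le_sum fun T' _ => ?_) b2
          exact mul_le_of_le_one_right (J_nonneg _ _ _) (J_le_one _ _ _)
      _ ≤ J T E1 S := by
          rw [← Finset.mul_sum]
          exact mul_le_of_le_one_right (J_nonneg _ _ _) (b3 T)
  · have : ∑ S', ∑ T, ∑ T', J T E1 S * J T E4 S' * (J T' E2 S * J T' E3 S') = 0 := by
      refine Finset.sum_eq_zero fun S' _ => Finset.sum_eq_zero fun T _ =>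
        Finset.sum_eq_zero fun T' _ => ?_
      by_contra h
      exact hc (key S' T T' h)
    rw [this]
    split_ifs <;> norm_num

end general

section paths
variable {w d : ℕ}

/-- the edge of a path in layer `i` -/
def ed (π : Fin (d + 1) → Fin w) (i : Fin d) : Fin d × Fin w × Fin w :=
  (i, π i.castSucc, π i.succ)

/-- the set of edges of a path -/
def E (π : Fin (d + 1) → Fin w) : Finset (Fin d × Fin w × Fin w) := univ.image (ed π)

theorem ed_inj (π : Fin (d + 1) → Fin w) : Function.Injective (ed π) :=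
  fun _ _ h => congrArg Prod.fst h

theorem mem_E (π : Fin (d + 1) → Fin w) (i : Fin d) (e : Fin w × Fin w) :
    (i, e) ∈ E π ↔ e = (π i.castSucc, π i.succ) := by
  simp only [E, Finset.mem_image, Finset.mem_univ, true_and, ed]
  constructor
  · rintro ⟨j, hj⟩
    obtain ⟨rfl, h⟩ := Prod.mk.inj hj
    exact h.symm
  · rintro rfl
    exact ⟨i, rfl⟩

theorem prod_X_eq {σ K : Type*} [DecidableEq σ] [Field K] (S : Finset σ) :
    ∏ v ∈ S, (X v : MvPolynomial σ K) = monomial (ind S) 1 := by
  induction S using Finset.induction_on with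
  | empty =>
    have : ind (∅ : Finset σ) = 0 := by ext v; simp [ind_apply]
    simp [this]
  | insert a S ha ih =>
    rw [Finset.prod_insert ha, ih, X, monomial_mul, one_mul]
    congr 2
    ext v
    simp only [Finsupp.add_apply, ind_apply, Finsupp.single_apply, Finset.mem_insert]
    by_cases h : a = v
    · subst h
      simp [ha]
    · simp [h, Ne.symm h]

/-- the admissible paths -/
def Pth (w d : ℕ) : Finset (Fin (d + 1) → Fin w) :=
  univ.filter (fun π => (π 0).val = 0 ∧ (π (Fin.last d)).val = 0)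

theorem IMM_eq (K : Type*) [Field K] : IMM K w d = ∑ π ∈ Pth w d, monomial (ind (E π)) 1 := by
  refine Finset.sum_congr rfl fun π _ => ?_
  rw [← prod_X_eq, E, Finset.prod_image (fun _ _ _ _ h => ed_inj π h)]
  rfl

theorem IMM_hom (K : Type*) [Field K] : (IMM K w d).IsHomogeneous d := by
  refine IsHomogeneous.sum _ _ _ fun π _ => ?_
  have := IsHomogeneous.prod (univ : Finset (Fin d))
    (fun i => (X (i, π i.castSucc, π i.succ) : MvPolynomial (Fin d × Fin w × Fin w) K))
    (fun _ => 1) (fun i _ => isHomogeneous_X K _)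
  simpa using this

/-- integer matrix of multiplication by `IMM` -/
noncomputable def NM (T S : Finset (Fin d × Fin w × Fin w)) : ℕ :=
  ((Pth w d).filter fun π => ind T = ind (E π) + ind S).card

theorem Mat_IMM (K : Type*) [Field K] (T S : Finset (Fin d × Fin w × Fin w)) :
    Mat (IMM K w d) T S = NM T S := by
  simp only [Mat, Matrix.of_apply, IMM_eq, Finset.sum_mul, monomial_mul, coeff_sum, coeff_monomial,
    mul_one, NM, Finset.card_filter]
  push_cast
  refine Finset.sum_congr rfl fun π _ => ?_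
  simp only [eq_comm]

theorem NM_real (T S : Finset (Fin d × Fin w × Fin w)) :
    (NM T S : ℝ) = ∑ π ∈ Pth w d, J T (E π) S := by
  simp only [NM, Finset.card_filter, J]
  push_cast
  rfl

/-- integer block matrix -/
noncomputable def Nblk (l : Fin d × Fin w × Fin w → ℤ) (x : ℤ) :
    Matrix (Finset (Fin d × Fin w × Fin w)) (Finset (Fin d × Fin w × Fin w)) ℕ :=
  Matrix.of fun T S => if LS l T = x ∧ LS l S = x then NM T S else 0

theorem blk_IMM (K : Type*) [Field K] (l : Fin d × Fin w × Fin w → ℤ) (x : ℤ) :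
    blk l (IMM K w d) x = (Nblk l x).map (fun a : ℕ => (a : K)) := by
  ext T S
  simp only [blk, Nblk, Matrix.of_apply, Matrix.map_apply, Mat_IMM]
  split_ifs <;> simp

theorem card_Pth (hw : 0 < w) : w ^ (d + 1) ≤ w * (w * (Pth w d).card) := by
  set z : Fin w := ⟨0, hw⟩ with hz
  have := Finset.card_le_card_of_injOn (s := (univ : Finset (Fin (d + 1) → Fin w)))
    (t := (univ : Finset (Fin w)) ×ˢ (univ : Finset (Fin w)) ×ˢ Pth w d)
    (fun π => (π 0, π (Fin.last d), Function.update (Function.update π 0 z) (Fin.last d) z))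
    (by
      intro π _
      simp only [Finset.coe_product, Finset.coe_univ, Set.mem_prod, Set.mem_univ, true_and,
        Finset.mem_coe, Pth, Finset.mem_filter, Finset.mem_univ]
      constructor
      · by_cases h : (0 : Fin (d + 1)) = Fin.last d
        · rw [h]; simp [hz]
        · rw [Function.update_of_ne h]; simp [hz]
      · simp [hz])
    (by
      intro π _ π' _ h
      simp only [Prod.mk.injEq] at h
      obtain ⟨h1, h2, h3⟩ := h
      funext i
      by_cases hi : i = Fin.last d
      · rw [hi, h2]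
      · by_cases hi0 : i = 0
        · rw [hi0, h1]
        · have := congrFun h3 i
          rwa [Function.update_of_ne hi, Function.update_of_ne hi, Function.update_of_ne hi0,
            Function.update_of_ne hi0] at this)
  simpa using this

end paths

end Vale.Agent.P346
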