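import Vale.Agent.P346.Lower

/-! Second and fourth moments. -/

namespace Vale.Agent.P346

open Finset MvPolynomial

theorem pair_cases {Y : Type*} [DecidableEq Y] (e1 e2 e3 e4 : Y)
    (h : ∀ e, (if e = e1 then 1 else 0) + (if e = e3 then 1 else 0) =
      (if e = e2 then 1 else 0) + (if e = e4 then (1 : ℕ) else 0)) :
    (e1 = e2 ∧ e3 = e4) ∨ (e1 = e4 ∧ e3 = e2) := by
  have h1 := h e1
  have h2 := h e2
  have h3 := h e3
  have h4 := h e4
  grind

theorem prod_le_pt {Y : Type*} [Fintype Y] [DecidableEq Y] (r : Y → ℝ) (h0 : ∀ e, 0 ≤ r e)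
    (h1 : ∀ e, r e ≤ 1) (a : Y) : ∏ e, r e ≤ r a := by
  have := Finset.prod_le_prod_of_subset_of_le_one (s := {a}) (t := univ) (f := r)
    (Finset.subset_univ _) (fun i _ => h0 i) (fun i _ _ => h1 i)
  simpa using this

theorem prod_le_pt2 {Y : Type*} [Fintype Y] [DecidableEq Y] (r : Y → ℝ) (h0 : ∀ e, 0 ≤ r e)
    (h1 : ∀ e, r e ≤ 1) {a b : Y} (hab : a ≠ b) : ∏ e, r e ≤ r a * r b := by
  have := Finset.prod_le_prod_of_subset_of_le_one (s := {a, b}) (t := univ) (f := r)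
    (Finset.subset_univ _) (fun i _ => h0 i) (fun i _ _ => h1 i)
  rwa [Finset.prod_pair hab] at this

theorem four_sum {α : Type*} (s : Finset α) (f g h k : α → ℝ) :
    (∑ a ∈ s, f a) * (∑ a ∈ s, g a) * ((∑ a ∈ s, h a) * (∑ a ∈ s, k a)) =
      ∑ y ∈ s ×ˢ s ×ˢ s ×ˢ s, f y.1 * g y.2.2.2 * (h y.2.1 * k y.2.2.1) := by
  simp only [Finset.sum_product, ← Finset.sum_mul, ← Finset.mul_sum]

theorem sum_comm4 {α β : Type*} [Fintype α] (s : Finset β) (F : α → α → α → β → ℝ) :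
    ∑ a, ∑ b, ∑ c, ∑ y ∈ s, F a b c y = ∑ y ∈ s, ∑ a, ∑ b, ∑ c, F a b c y := by
  rw [Finset.sum_comm (s := s)]
  refine Finset.sum_congr rfl fun a _ => ?_
  rw [Finset.sum_comm (s := s)]
  refine Finset.sum_congr rfl fun b _ => ?_
  rw [Finset.sum_comm]

variable {w d : ℕ}

/-- variable weights from a height function -/
def lw (h : ℕ → ℤ) : Fin d × Fin w × Fin w → ℤ := fun v => h v.1 - h (v.1 + 1)

/-- layer activity -/
noncomputable def om (lam : ℝ) (h : ℕ → ℤ) (i : ℕ) : ℝ := Real.exp (lam * (h i - h (i + 1) : ℤ))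

theorem om_pos (lam : ℝ) (h : ℕ → ℤ) (i : ℕ) : 0 < om lam h i := Real.exp_pos _

theorem LS_E (h : ℕ → ℤ) (π : Fin (d + 1) → Fin w) : LS (lw h) (E π) = h 0 - h d := by
  rw [LS, E, Finset.sum_image (fun _ _ _ _ h => ed_inj π h)]
  simp only [lw, ed]
  rw [Fin.sum_univ_eq_sum_range (fun i => h i - h (i + 1)), Finset.sum_range_sub']

theorem ind_union {σ : Type*} [DecidableEq σ] {A S : Finset σ} (h : ∀ v ∈ A, v ∉ S) :
    ind (A ∪ S) = ind A + ind S := by
  ext v
  simp only [Finsupp.add_apply, ind_apply, Finset.mem_union]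
  by_cases h1 : v ∈ A
  · simp [h1, h v h1]
  · simp [h1]

theorem T2_block (h : ℕ → ℤ) (h0 : h 0 = h d) (x : ℤ) :
    ∑ S : Finset (Fin d × Fin w × Fin w), (if LS (lw h) S = x then
      ∑ π ∈ Pth w d, (if (∀ v ∈ E π, v ∉ S) ∧ (∀ v ∈ (∅ : Finset (Fin d × Fin w × Fin w)), v ∈ S)
        then (1 : ℝ) else 0) else 0) ≤
    ∑ S, ∑ T, (Nblk (w := w) (d := d) (lw h) x).map (fun a : ℕ => (a : ℝ)) T S *
      (Nblk (lw h) x).map (fun a : ℕ => (a : ℝ)) T S := by
  refine Finset.sum_le_sum fun S _ => ?_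
  split_ifs with hS
  · calc _ ≤ ∑ π ∈ Pth w d, ∑ T, (if LS (lw h) T = x then J T (E π) S else 0) := by
          refine Finset.sum_le_sum fun π _ => ?_
          have hnn : ∀ T ∈ (univ : Finset (Finset (Fin d × Fin w × Fin w))),
              0 ≤ (if LS (lw h) T = x then J T (E π) S else 0) := by
            intro T _
            split_ifs
            · exact J_nonneg _ _ _
            · exact le_rfl
          split_ifs with hd
          · refine le_trans ?_ (Finset.single_le_sum hnn (Finset.mem_univ (E π ∪ S)))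
            have e1 := ind_union hd.1
            have e2 : LS (lw h) (E π ∪ S) = x := by
              rw [← Lm_ind, e1, Lm_add, Lm_ind, Lm_ind, LS_E, hS, h0]
              simp
            rw [if_pos e2, J, if_pos e1]
          · exact Finset.sum_nonneg hnn
      _ = ∑ T, (Nblk (w := w) (d := d) (lw h) x).map (fun a : ℕ => (a : ℝ)) T S := by
          rw [Finset.sum_comm]
          refine Finset.sum_congr rfl fun T _ => ?_
          simp only [Nblk, Matrix.map_apply, Matrix.of_apply, hS, and_true]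
          split_ifs
          · rw [NM_real]
          · simp
      _ ≤ _ := by
          refine Finset.sum_le_sum fun T _ => ?_
          simp only [Matrix.map_apply]
          exact_mod_cast Nat.le_mul_self _
  · exact Finset.sum_nonneg fun T _ => mul_self_nonneg _

theorem T2_total (lam : ℝ) (h : ℕ → ℤ) (h0 : h 0 = h d) (R : Finset ℤ)
    (hR : ∀ S : Finset (Fin d × Fin w × Fin w), LS (lw h) S ∈ R) :
    Z0 (σ := Fin d × Fin w × Fin w) (lw h) lam * (Pth w d).card *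
      ∏ i ∈ range d, (om lam h i + 1)⁻¹ ≤
    ∑ x ∈ R, Real.exp (lam * x) *
      ∑ S, ∑ T, (Nblk (w := w) (d := d) (lw h) x).map (fun a : ℕ => (a : ℝ)) T S *
        (Nblk (lw h) x).map (fun a : ℕ => (a : ℝ)) T S := by
  refine le_trans (le_of_eq ?_) (Finset.sum_le_sum fun x _ =>
    mul_le_mul_of_nonneg_left (T2_block h h0 x) (Real.exp_pos _).le)
  rw [regroup _ _ _ hR]
  simp only [Finset.mul_sum, mul_ite, mul_one, mul_zero]
  rw [Finset.sum_comm]
  simp only [sum_forced']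
  rw [← Finset.mul_sum, mul_assoc]
  congr 1
  rw [← nsmul_eq_mul, ← Finset.sum_const]
  refine Finset.sum_congr rfl fun π _ => ?_
  have e : ∀ v, rr (fun v => Real.exp (lam * (lw (d := d) (w := w) h v))) (E π) ∅ v =
      if v ∈ E π then (om lam h v.1 + 1)⁻¹ else 1 := by
    intro v
    have : 0 < Real.exp (lam * (lw (d := d) (w := w) h v)) + 1 := by positivity
    unfold rr
    split_ifs with h1 h2 h2
    · simp at h2
    · simp [om, lw]
    · simp at h2
    · field_simp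
  simp only [e]
  rw [Finset.prod_ite_mem, Finset.univ_inter, E, Finset.prod_image (fun _ _ _ _ h => ed_inj π h)]
  simp only [ed]
  rw [Fin.prod_univ_eq_prod_range (fun i => (om lam h i + 1)⁻¹)]

theorem T4_block (l : Fin d × Fin w × Fin w → ℤ) (x : ℤ) :
    ∑ S, ∑ S', ∑ T, ∑ T', (Nblk l x).map (fun a : ℕ => (a : ℝ)) T S *
      (Nblk l x).map (fun a : ℕ => (a : ℝ)) T S' * ((Nblk l x).map (fun a : ℕ => (a : ℝ)) T' S *
      (Nblk l x).map (fun a : ℕ => (a : ℝ)) T' S') ≤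
    ∑ S, (if LS l S = x then ∑ y ∈ Pth w d ×ˢ Pth w d ×ˢ Pth w d ×ˢ Pth w d,
      (if ind (E y.1) + ind (E y.2.2.1) = ind (E y.2.1) + ind (E y.2.2.2) then
        (if (∀ v ∈ E y.1 ∪ E y.2.1, v ∉ S) ∧ (∀ v ∈ E y.2.2.2 \ E y.1, v ∈ S) then (1 : ℝ) else 0)
        else 0) else 0) := by
  refine Finset.sum_le_sum fun S _ => ?_
  split_ifs with hS
  · have hle : ∀ T S, (Nblk l x).map (fun a : ℕ => (a : ℝ)) T S ≤ NM T S := by
      intro T S
      simp only [Nblk, Matrix.map_apply, Matrix.of_apply]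
      split_ifs <;> simp
    have hnn : ∀ T S, 0 ≤ (Nblk l x).map (fun a : ℕ => (a : ℝ)) T S := fun T S =>
      Nat.cast_nonneg _
    calc _ ≤ ∑ S', ∑ T, ∑ T', (NM T S : ℝ) * NM T S' * (NM T' S * NM T' S') := by
          refine Finset.sum_le_sum fun S' _ => Finset.sum_le_sum fun T _ =>
            Finset.sum_le_sum fun T' _ => ?_
          have := hnn T S
          have := hnn T S'
          have := hnn T' S
          have := hnn T' S'
          gcongr <;> exact hle _ _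
      _ ≤ _ := by
          simp only [NM_real, four_sum]
          rw [sum_comm4]
          exact Finset.sum_le_sum fun y _ => quad_bound _ _ _ _ _
  · refine le_of_eq (Finset.sum_eq_zero fun S' _ => Finset.sum_eq_zero fun T _ =>
      Finset.sum_eq_zero fun T' _ => ?_)
    simp [Nblk, hS]

/-- four paths as one path of quadruples -/
def zip4 (y : (Fin (d + 1) → Fin w) × (Fin (d + 1) → Fin w) × (Fin (d + 1) → Fin w) ×
    (Fin (d + 1) → Fin w)) : Fin (d + 1) → Fin w × Fin w × Fin w × Fin w :=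
  fun i => (y.1 i, y.2.1 i, y.2.2.1 i, y.2.2.2 i)

theorem zip4_inj : Function.Injective (zip4 (d := d) (w := w)) := by
  rintro ⟨a, b, c, e⟩ ⟨a', b', c', e'⟩ h
  have h1 := fun i => congrFun h i
  simp only [zip4, Prod.mk.injEq] at h1
  simp only [Prod.mk.injEq]
  exact ⟨funext fun i => (h1 i).1, funext fun i => (h1 i).2.1, funext fun i => (h1 i).2.2.1,
    funext fun i => (h1 i).2.2.2⟩

theorem layer_bound (lam : ℝ) (h : ℕ → ℤ) (y : (Fin (d + 1) → Fin w) × (Fin (d + 1) → Fin w) ×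
    (Fin (d + 1) → Fin w) × (Fin (d + 1) → Fin w))
    (hy : ind (E y.1) + ind (E y.2.2.1) = ind (E y.2.1) + ind (E y.2.2.2)) :
    ∏ v, rr (fun v => Real.exp (lam * (lw (d := d) (w := w) h v))) (E y.1 ∪ E y.2.1)
      (E y.2.2.2 \ E y.1) v ≤
      ∏ i : Fin d, kern (om lam h i) (zip4 y i.castSucc) (zip4 y i.succ) := by
  obtain ⟨π1, π2, π3, π4⟩ := y
  set ω : Fin d × Fin w × Fin w → ℝ := fun v => Real.exp (lam * (lw (d := d) (w := w) h v))
    with hω
  have hω0 : ∀ v, 0 < ω v := fun v => Real.exp_pos _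
  rw [Fintype.prod_prod_type]
  refine Finset.prod_le_prod (fun i _ => Finset.prod_nonneg fun e _ => rr_nonneg hω0 _ _ _)
    fun i _ => ?_
  have hωi : ∀ e, ω (i, e) = om lam h i := fun e => rfl
  have hc := pair_cases (π1 i.castSucc, π1 i.succ) (π2 i.castSucc, π2 i.succ)
    (π3 i.castSucc, π3 i.succ) (π4 i.castSucc, π4 i.succ) (fun e => by
      have := congrArg (fun m => m (i, e)) hy
      simpa only [Finsupp.add_apply, ind_apply, mem_E] using this)
  have r0 : ∀ e, 0 ≤ rr ω (E π1 ∪ E π2) (E π4 \ E π1) (i, e) := fun e => rr_nonneg hω0 _ _ _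
  have r1 : ∀ e, rr ω (E π1 ∪ E π2) (E π4 \ E π1) (i, e) ≤ 1 := fun e => rr_le_one hω0 _ _ _
  have a1 : rr ω (E π1 ∪ E π2) (E π4 \ E π1) (i, (π1 i.castSucc, π1 i.succ)) ≤
      (om lam h i + 1)⁻¹ := by
    rw [← hωi (π1 i.castSucc, π1 i.succ)]
    exact rr_le_A hω0 _ (Finset.mem_union_left _ ((mem_E _ _ _).mpr rfl))
  have a2 : rr ω (E π1 ∪ E π2) (E π4 \ E π1) (i, (π2 i.castSucc, π2 i.succ)) ≤
      (om lam h i + 1)⁻¹ := by
    rw [← hωi (π2 i.castSucc, π2 i.succ)]
    exact rr_le_A hω0 _ (Finset.mem_union_right _ ((mem_E _ _ _).mpr rfl))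
  have hom := om_pos lam h i
  have hφ : 0 < (om lam h i + 1)⁻¹ := by positivity
  have f1 := iF_nonneg (zip4 (π1, π2, π3, π4) i.castSucc)
  have f2 := iF_nonneg (zip4 (π1, π2, π3, π4) i.succ)
  have b1 := iB_nonneg (zip4 (π1, π2, π3, π4) i.castSucc)
  have b2 := iB_nonneg (zip4 (π1, π2, π3, π4) i.succ)
  have hF : (π1 i.castSucc, π1 i.succ) = (π4 i.castSucc, π4 i.succ) →
      (π3 i.castSucc, π3 i.succ) = (π2 i.castSucc, π2 i.succ) →
      iF (zip4 (π1, π2, π3, π4) i.castSucc) = 1 ∧ iF (zip4 (π1, π2, π3, π4) i.succ) = 1 := by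
    intro h1 h2
    simp only [Prod.mk.injEq] at h1 h2
    simp [iF, zip4, h1.1, h1.2, h2.1, h2.2]
  have hB : (π1 i.castSucc, π1 i.succ) = (π2 i.castSucc, π2 i.succ) →
      (π3 i.castSucc, π3 i.succ) = (π4 i.castSucc, π4 i.succ) →
      iB (zip4 (π1, π2, π3, π4) i.castSucc) = 1 ∧ iB (zip4 (π1, π2, π3, π4) i.succ) = 1 := by
    intro h1 h2
    simp only [Prod.mk.injEq] at h1 h2
    simp [iB, zip4, h1.1, h1.2, h2.1, h2.2]
  unfold kern
  by_cases h12 : (π1 i.castSucc, π1 i.succ) = (π2 i.castSucc, π2 i.succ)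
  · have h34 : (π3 i.castSucc, π3 i.succ) = (π4 i.castSucc, π4 i.succ) := by
      rcases hc with hc | hc
      · exact hc.2
      · rw [hc.2, ← h12, hc.1]
    obtain ⟨e1, e2⟩ := hB h12 h34
    by_cases h14 : (π1 i.castSucc, π1 i.succ) = (π4 i.castSucc, π4 i.succ)
    · obtain ⟨e3, e4⟩ := hF h14 (by rw [h34, ← h14, h12])
      rw [e1, e2, e3, e4]
      refine le_trans (prod_le_pt _ r0 r1 _) (le_trans a1 ?_)
      refine le_mul_of_one_le_right hφ.le ?_
      have : 0 < om lam h i * (om lam h i + 1)⁻¹ := by positivity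
      linarith
    · have a4 : rr ω (E π1 ∪ E π2) (E π4 \ E π1) (i, (π4 i.castSucc, π4 i.succ)) ≤
          om lam h i * (om lam h i + 1)⁻¹ := by
        rw [← hωi (π4 i.castSucc, π4 i.succ)]
        refine rr_le_B hω0 _ (Finset.mem_sdiff.mpr ⟨(mem_E _ _ _).mpr rfl, fun hh => ?_⟩)
        exact h14 ((mem_E _ _ _).mp hh).symm
      refine le_trans (prod_le_pt2 _ r0 r1 h14) (le_trans (mul_le_mul a1 a4 (r0 _) hφ.le) ?_)
      refine mul_le_mul_of_nonneg_left ?_ hφ.le
      rw [e1, e2]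
      have := mul_nonneg f1 f2
      have := mul_nonneg hφ.le this
      nlinarith
  · have hc' := hc.resolve_left (fun hh => h12 hh.1)
    obtain ⟨e3, e4⟩ := hF hc'.1 hc'.2
    refine le_trans (prod_le_pt2 _ r0 r1 h12) (le_trans (mul_le_mul a1 a2 (r0 _) hφ.le) ?_)
    refine mul_le_mul_of_nonneg_left ?_ hφ.le
    rw [e3, e4]
    have := mul_nonneg b1 b2
    have := mul_nonneg (mul_nonneg hom.le hφ.le) this
    nlinarith

theorem path_sum (lam Λ : ℝ) (h : ℕ → ℤ) (hw0 : 0 < w)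
    (hb1 : ∀ i, 1 ≤ Real.exp (lam * h i)) (hb2 : ∀ i, Real.exp (lam * h i) ≤ Λ)
    (hw : 2 * (Λ + 1) ≤ w) :
    ∑ y ∈ Pth w d ×ˢ Pth w d ×ˢ Pth w d ×ˢ Pth w d,
      ∏ i : Fin d, kern (om lam h i) (zip4 y i.castSucc) (zip4 y i.succ) ≤
      (∏ i ∈ range d, ((w : ℝ) ^ 2 * (om lam h i + 1)⁻¹ ^ 2 * (1 + 4 * Λ / w))) * (4 * Λ) := by
  set z : Fin w := ⟨0, hw0⟩ with hz
  have hΛ : 1 ≤ Λ := le_trans (hb1 0) (hb2 0)
  have hbo : ∀ i, Real.exp (lam * h (i + 1)) * om lam h i = Real.exp (lam * h i) := by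
    intro i
    rw [om, ← Real.exp_add]
    congr 1
    push_cast
    ring
  have hom : ∀ i, om lam h i ≤ Λ := by
    intro i
    have h1 := hbo i
    have h2 := hb1 (i + 1)
    have h3 := hb2 i
    have h4 := om_pos lam h i
    nlinarith
  have ht := transfer (X := Fin w × Fin w × Fin w × Fin w) (fun i => kern (om lam h i))
    (fun i => pot Λ (Real.exp (lam * h i)))
    (fun i => (w : ℝ) ^ 2 * (om lam h i + 1)⁻¹ ^ 2 * (1 + 4 * Λ / w))
    (fun v => if v = (z, z, z, z) then 1 else 0)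
    (fun i v v' => kern_nonneg (om_pos lam h i) v v')
    (fun i => by positivity)
    (fun v => by split_ifs <;> norm_num)
    (fun i v => by
      have := kern_step (Y := Fin w) (om_pos lam h i) (hbo i) (hb1 (i + 1)) (hb2 (i + 1))
        (by rw [Fintype.card_fin]; linarith [hom i]) v
      rwa [Fintype.card_fin] at this) d
  have hpot : ∀ i v, 0 ≤ pot Λ (Real.exp (lam * h i)) (v : Fin w × Fin w × Fin w × Fin w) := by
    intro i v
    have := iF_nonneg v
    have := iB_nonneg v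
    unfold pot
    positivity
  have hpz : ∀ i, pot Λ (Real.exp (lam * h i)) (z, z, z, z) = 1 + Real.exp (lam * h i) + (1 + Λ) := by
    intro i
    simp [pot, iF, iB]
  refine le_trans ?_ (le_trans ht ?_)
  · set G : (Fin (d + 1) → Fin w × Fin w × Fin w × Fin w) → ℝ := fun π =>
      (if π 0 = (z, z, z, z) then 1 else 0) *
        (∏ i : Fin d, kern (om lam h i) (π i.castSucc) (π i.succ)) *
        pot Λ (Real.exp (lam * h d)) (π (Fin.last d)) with hG
    have hG0 : ∀ π, 0 ≤ G π := by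
      intro π
      refine mul_nonneg (mul_nonneg ?_ ?_) (hpot _ _)
      · split_ifs <;> norm_num
      · exact Finset.prod_nonneg fun i _ => kern_nonneg (om_pos lam h i) _ _
    calc _ ≤ ∑ y ∈ Pth w d ×ˢ Pth w d ×ˢ Pth w d ×ˢ Pth w d, G (zip4 y) := by
          refine Finset.sum_le_sum fun y hy => ?_
          simp only [Finset.mem_product, Pth, Finset.mem_filter, Finset.mem_univ, true_and] at hy
          obtain ⟨⟨a1, a2⟩, ⟨b1, b2⟩, ⟨c1, c2⟩, e1, e2⟩ := hy
          have z0 : zip4 y 0 = (z, z, z, z) := by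
            simp only [zip4, Prod.mk.injEq]
            exact ⟨Fin.ext a1, Fin.ext b1, Fin.ext c1, Fin.ext e1⟩
          have z1 : zip4 y (Fin.last d) = (z, z, z, z) := by
            simp only [zip4, Prod.mk.injEq]
            exact ⟨Fin.ext a2, Fin.ext b2, Fin.ext c2, Fin.ext e2⟩
          simp only [hG, z0, z1, if_true, one_mul, hpz]
          refine le_mul_of_one_le_right
            (Finset.prod_nonneg fun i _ => kern_nonneg (om_pos lam h i) _ _) ?_
          linarith [hb1 d]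
      _ = ∑ π ∈ (Pth w d ×ˢ Pth w d ×ˢ Pth w d ×ˢ Pth w d).image zip4, G π := by
          rw [Finset.sum_image (fun _ _ _ _ hh => zip4_inj hh)]
      _ ≤ ∑ π, G π :=
          Finset.sum_le_sum_of_subset_of_nonneg (Finset.subset_univ _) (fun π _ _ => hG0 π)
  · refine mul_le_mul_of_nonneg_left ?_ (Finset.prod_nonneg fun i _ => by positivity)
    simp only [ite_mul, one_mul, zero_mul, Finset.sum_ite_eq', Finset.mem_univ, if_true, hpz]
    linarith [hb2 0]

theorem T4_total (lam Λ : ℝ) (h : ℕ → ℤ) (hw0 : 0 < w)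
    (hb1 : ∀ i, 1 ≤ Real.exp (lam * h i)) (hb2 : ∀ i, Real.exp (lam * h i) ≤ Λ)
    (hw : 2 * (Λ + 1) ≤ w) (R : Finset ℤ)
    (hR : ∀ S : Finset (Fin d × Fin w × Fin w), LS (lw h) S ∈ R) :
    ∑ x ∈ R, Real.exp (lam * x) *
      ∑ S, ∑ S', ∑ T, ∑ T', (Nblk (w := w) (d := d) (lw h) x).map (fun a : ℕ => (a : ℝ)) T S *
      (Nblk (lw h) x).map (fun a : ℕ => (a : ℝ)) T S' *
      ((Nblk (lw h) x).map (fun a : ℕ => (a : ℝ)) T' S *
      (Nblk (lw h) x).map (fun a : ℕ => (a : ℝ)) T' S') ≤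
    Z0 (σ := Fin d × Fin w × Fin w) (lw h) lam *
      ((∏ i ∈ range d, ((w : ℝ) ^ 2 * (om lam h i + 1)⁻¹ ^ 2 * (1 + 4 * Λ / w))) * (4 * Λ)) := by
  refine le_trans (Finset.sum_le_sum fun x _ =>
    mul_le_mul_of_nonneg_left (T4_block (lw h) x) (Real.exp_pos _).le) ?_
  rw [regroup _ _ _ hR]
  refine le_trans ?_ (mul_le_mul_of_nonneg_left (path_sum lam Λ h hw0 hb1 hb2 hw)
    (Z0_pos _ _).le)
  simp only [Finset.mul_sum]
  rw [Finset.sum_comm]
  refine Finset.sum_le_sum fun y _ => ?_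
  split_ifs with hy
  · simp only [mul_ite, mul_one, mul_zero]
    rw [sum_forced']
    exact mul_le_mul_of_nonneg_left (layer_bound lam h y hy) (Z0_pos _ _).le
  · simp only [mul_zero, Finset.sum_const_zero]
    exact mul_nonneg (Z0_pos _ _).le
      (Finset.prod_nonneg fun i _ => kern_nonneg (om_pos lam h i) _ _)

theorem mu_IMM_lower (K : Type*) [Field K] [CharZero K] (lam Λ : ℝ) (h : ℕ → ℤ) (h0 : h 0 = h d)
    (hb1 : ∀ i, 1 ≤ Real.exp (lam * h i)) (hb2 : ∀ i, Real.exp (lam * h i) ≤ Λ)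
    (hw : 2 * (Λ + 1) ≤ w) (R : Finset ℤ)
    (hR : ∀ S : Finset (Fin d × Fin w × Fin w), LS (lw h) S ∈ R) :
    Z0 (σ := Fin d × Fin w × Fin w) (lw h) lam ≤
      mu (lw h) lam R (IMM K w d) * ((w : ℝ) ^ 2 * (4 * Λ) * (1 + 4 * Λ / w) ^ d) := by
  have hΛ : 1 ≤ Λ := le_trans (hb1 0) (hb2 0)
  have hwR : (0 : ℝ) < w := by linarith
  have hw0 : 0 < w := by exact_mod_cast hwR
  have h2 := T2_total (w := w) lam h h0 R hR
  have h4 := T4_total (d := d) lam Λ h hw0 hb1 hb2 hw R hR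
  set A : ℤ → Matrix (Finset (Fin d × Fin w × Fin w)) (Finset (Fin d × Fin w × Fin w)) ℝ :=
    fun x => (Nblk (w := w) (d := d) (lw h) x).map (fun a : ℕ => (a : ℝ)) with hA
  have cs := Finset.sum_sq_le_sum_mul_sum_of_sq_le_mul R
    (r := fun x => Real.exp (lam * x) * ∑ S, ∑ T, A x T S * A x T S)
    (f := fun x => Real.exp (lam * x) * (blk (lw h) (IMM K w d) x).rank)
    (g := fun x => Real.exp (lam * x) *
      ∑ S, ∑ S', ∑ T, ∑ T', A x T S * A x T S' * (A x T' S * A x T' S'))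
    (fun x _ => by positivity)
    (fun x _ => mul_nonneg (Real.exp_pos _).le (Finset.sum_nonneg fun S _ =>
      Finset.sum_nonneg fun S' _ => Finset.sum_nonneg fun T _ => Finset.sum_nonneg fun T' _ => by
        simp only [hA, Matrix.map_apply]
        positivity))
    (fun x _ => by
      have h1 := frob_sq_le_rank (A x)
      have h3 : ((A x).rank : ℝ) ≤ (blk (lw h) (IMM K w d) x).rank := by
        rw [blk_IMM]
        exact_mod_cast rank_real_le _
      have h5 : 0 ≤ ∑ S, ∑ S', ∑ T, ∑ T', A x T S * A x T S' * (A x T' S * A x T' S') :=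
        Finset.sum_nonneg fun S _ =>
          Finset.sum_nonneg fun S' _ => Finset.sum_nonneg fun T _ =>
            Finset.sum_nonneg fun T' _ => by
              simp only [hA, Matrix.map_apply]
              positivity
      have h6 := le_trans h1 (mul_le_mul_of_nonneg_right h3 h5)
      rw [mul_pow, mul_mul_mul_comm, ← sq]
      exact mul_le_mul_of_nonneg_left h6 (sq_nonneg _))
  set Z := Z0 (σ := Fin d × Fin w × Fin w) (lw h) lam with hZ
  have hZ0 : 0 < Z := Z0_pos _ _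
  set Φ := ∏ i ∈ range d, (om lam h i + 1)⁻¹ with hΦ
  have hΦ0 : 0 < Φ := Finset.prod_pos fun i _ => by have := om_pos lam h i; positivity
  have e : ∏ i ∈ range d, ((w : ℝ) ^ 2 * (om lam h i + 1)⁻¹ ^ 2 * (1 + 4 * Λ / w)) =
      ((w : ℝ) ^ d) ^ 2 * Φ ^ 2 * (1 + 4 * Λ / w) ^ d := by
    rw [Finset.prod_mul_distrib, Finset.prod_mul_distrib, Finset.prod_pow, Finset.prod_const,
      Finset.prod_const, Finset.card_range, ← pow_mul, Finset.prod_pow]
  rw [e] at h4
  have hm0 := mu_nonneg (lw h) lam R (IMM K w d)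
  have h7 : (Z * (Pth w d).card * Φ) ^ 2 ≤ mu (lw h) lam R (IMM K w d) *
      (Z * (((w : ℝ) ^ d) ^ 2 * Φ ^ 2 * (1 + 4 * Λ / w) ^ d * (4 * Λ))) := by
    refine le_trans (pow_le_pow_left₀ (by positivity) h2 2) (le_trans cs ?_)
    exact mul_le_mul_of_nonneg_left h4 hm0
  have h8 : (w : ℝ) ^ d ≤ w * (Pth w d).card := by
    have h9 : ((w ^ (d + 1) : ℕ) : ℝ) ≤ ((w * (w * (Pth w d).card) : ℕ) : ℝ) := by
      exact_mod_cast card_Pth (d := d) hw0
    push_cast at h9
    rw [pow_succ'] at h9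
    exact le_of_mul_le_mul_left h9 hwR
  have h9 : ((w : ℝ) ^ d) ^ 2 ≤ (w * (Pth w d).card) ^ 2 := pow_le_pow_left₀ (by positivity) h8 2
  have hP : (0 : ℝ) < (Pth w d).card := by
    have : (0 : ℝ) < w * (Pth w d).card := lt_of_lt_of_le (by positivity) h8
    exact (mul_pos_iff_of_pos_left hwR).mp this
  have h10 : (Z * (Pth w d).card * Φ) ^ 2 ≤ mu (lw h) lam R (IMM K w d) *
      (Z * ((w * (Pth w d).card) ^ 2 * Φ ^ 2 * (1 + 4 * Λ / w) ^ d * (4 * Λ))) := by
    refine le_trans h7 ?_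
    gcongr
  have h11 : Z * (Z * ((Pth w d).card * Φ) ^ 2) ≤
      (mu (lw h) lam R (IMM K w d) * ((w : ℝ) ^ 2 * (4 * Λ) * (1 + 4 * Λ / w) ^ d)) *
        (Z * ((Pth w d).card * Φ) ^ 2) := by
    convert h10 using 1 <;> ring
  exact le_of_mul_le_mul_right h11 (by positivity)

end Vale.Agent.P346
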