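import Vale.Agent.P346.Rank

/-! The complexity measure: weighted ranks of multiplication on the squarefree quotient. -/

namespace Vale.Agent.P346

open Finset MvPolynomial

variable {σ K : Type*} [Fintype σ] [DecidableEq σ] [Field K]

/-- the squarefree exponent vector of a set of variables -/
noncomputable def ind (S : Finset σ) : σ →₀ ℕ :=
  Finsupp.onFinset S (fun v => if v ∈ S then 1 else 0) (by
    intro v hv
    by_contra h
    simp [h] at hv)

omit [Fintype σ] in
theorem ind_apply (S : Finset σ) (v : σ) : ind S v = if v ∈ S then 1 else 0 := rfl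

omit [Fintype σ] in
theorem ind_inj {S T : Finset σ} (h : ind S = ind T) : S = T := by
  ext v
  have := congrArg (fun m => m v) h
  simp only [ind_apply] at this
  by_cases h1 : v ∈ S <;> by_cases h2 : v ∈ T <;> simp_all

omit [Fintype σ] in
theorem eq_ind_of_le {b : σ →₀ ℕ} {T : Finset σ} (h : b ≤ ind T) : b = ind b.support := by
  ext v
  have h1 : b v ≤ ind T v := h v
  rw [ind_apply] at h1 ⊢
  have h2 : b v ≤ 1 := le_trans h1 (by split_ifs <;> simp)
  simp only [Finsupp.mem_support_iff]
  split_ifs with h3
  · omega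
  · simpa using h3

/-- matrix of multiplication by `f` on the squarefree quotient -/
noncomputable def Mat (f : MvPolynomial σ K) : Matrix (Finset σ) (Finset σ) K :=
  Matrix.of fun T S => coeff (ind T) (f * monomial (ind S) 1)

theorem coeff_mul_proj (f g : MvPolynomial σ K) (T : Finset σ) :
    coeff (ind T) (f * g) = ∑ U : Finset σ, coeff (ind T) (f * monomial (ind U) 1) *
      coeff (ind U) g := by
  have h1 : ∀ U : Finset σ, coeff (ind T) (f * monomial (ind U) 1) * coeff (ind U) g
      = coeff (ind T) (f * monomial (ind U) (coeff (ind U) g)) := by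
    intro U
    have : monomial (ind U) (coeff (ind U) g) = monomial (ind U) (1 : K) * C (coeff (ind U) g) := by
      rw [mul_comm, C_mul_monomial, mul_one]
    rw [this, ← mul_assoc, mul_comm _ (C _), coeff_C_mul, mul_comm]
  simp_rw [h1]
  rw [← coeff_sum, ← Finset.mul_sum, coeff_mul, coeff_mul]
  refine Finset.sum_congr rfl fun x hx => ?_
  congr 1
  have hx' : x.1 + x.2 = ind T := by simpa using hx
  have hb : x.2 = ind x.2.support := eq_ind_of_le (T := T) (by rw [← hx']; exact le_add_self)
  rw [coeff_sum, Finset.sum_eq_single x.2.support]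
  · rw [← hb, coeff_monomial, if_pos rfl]
  · intro U _ hU
    rw [coeff_monomial, if_neg]
    intro h
    apply hU
    apply ind_inj
    rw [h, ← hb]
  · simp

theorem Mat_mul (f g : MvPolynomial σ K) : Mat (f * g) = Mat f * Mat g := by
  ext T S
  simp only [Mat, Matrix.mul_apply, Matrix.of_apply]
  rw [mul_assoc, coeff_mul_proj]

omit [Fintype σ] in
theorem Mat_add (f g : MvPolynomial σ K) : Mat (f + g) = Mat f + Mat g := by
  ext T S
  simp [Mat, add_mul]

omit [Fintype σ] in
theorem Mat_smul (c : K) (f : MvPolynomial σ K) : Mat (c • f) = c • Mat f := by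
  ext T S
  simp [Mat]

omit [Fintype σ] in
theorem Mat_ne_zero {f : MvPolynomial σ K} {T S : Finset σ} (h : Mat f T S ≠ 0) :
    ∃ m, coeff m f ≠ 0 ∧ ind T = m + ind S := by
  simp only [Mat, Matrix.of_apply] at h
  rw [coeff_mul_monomial'] at h
  split_ifs at h with h1
  · refine ⟨ind T - ind S, ?_, (tsub_add_cancel_of_le h1).symm⟩
    simpa using h
  · exact absurd rfl h

/-- weight of an exponent vector -/
noncomputable def Lm (l : σ → ℤ) (m : σ →₀ ℕ) : ℤ := ∑ v, (m v : ℤ) * l v

/-- weight of a set of variables -/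
def LS (l : σ → ℤ) (S : Finset σ) : ℤ := ∑ v ∈ S, l v

omit [DecidableEq σ] in
theorem Lm_add (l : σ → ℤ) (a b : σ →₀ ℕ) : Lm l (a + b) = Lm l a + Lm l b := by
  simp [Lm, add_mul, Finset.sum_add_distrib]

omit [DecidableEq σ] in
theorem Lm_zero (l : σ → ℤ) : Lm l 0 = 0 := by simp [Lm]

theorem Lm_ind (l : σ → ℤ) (S : Finset σ) : Lm l (ind S) = LS l S := by
  simp [Lm, LS, ind_apply, Finset.sum_ite_mem]

/-- the weight `x` block -/
noncomputable def blk (l : σ → ℤ) (f : MvPolynomial σ K) (x : ℤ) :
    Matrix (Finset σ) (Finset σ) K :=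
  Matrix.of fun T S => if LS l T = x ∧ LS l S = x then Mat f T S else 0

/-- the measure -/
noncomputable def mu (l : σ → ℤ) (lam : ℝ) (R : Finset ℤ) (f : MvPolynomial σ K) : ℝ :=
  ∑ x ∈ R, Real.exp (lam * x) * (blk l f x).rank

/-- partition function -/
noncomputable def Z0 (l : σ → ℤ) (lam : ℝ) : ℝ := ∑ S : Finset σ, Real.exp (lam * LS l S)

variable (l : σ → ℤ) (lam : ℝ) (R : Finset ℤ)

omit [DecidableEq σ] in
theorem Z0_pos : 0 < Z0 l lam :=
  Finset.sum_pos (fun _ _ => Real.exp_pos _) Finset.univ_nonempty

theorem mu_nonneg (f : MvPolynomial σ K) : 0 ≤ mu l lam R f :=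
  Finset.sum_nonneg fun _ _ => mul_nonneg (Real.exp_pos _).le (Nat.cast_nonneg _)

theorem mu_add (f g : MvPolynomial σ K) : mu l lam R (f + g) ≤ mu l lam R f + mu l lam R g := by
  unfold mu
  rw [← Finset.sum_add_distrib]
  refine Finset.sum_le_sum fun x _ => ?_
  rw [← mul_add]
  refine mul_le_mul_of_nonneg_left ?_ (Real.exp_pos _).le
  have : blk l (f + g) x = blk l f x + blk l g x := by
    ext T S
    simp only [blk, Mat_add, Matrix.of_apply, Matrix.add_apply]
    split_ifs <;> simp
  rw [this]
  exact_mod_cast rank_add_le' _ _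

theorem mu_smul (c : K) (f : MvPolynomial σ K) : mu l lam R (c • f) ≤ mu l lam R f := by
  unfold mu
  refine Finset.sum_le_sum fun x _ => ?_
  refine mul_le_mul_of_nonneg_left ?_ (Real.exp_pos _).le
  have : blk l (c • f) x = c • blk l f x := by
    ext T S
    simp only [blk, Mat_smul, Matrix.of_apply, Matrix.smul_apply]
    split_ifs <;> simp
  rw [this]
  exact_mod_cast rank_smul_le' _ _

theorem mu_zero : mu l lam R (0 : MvPolynomial σ K) = 0 := by
  unfold mu
  refine Finset.sum_eq_zero fun x _ => ?_
  have : blk l (0 : MvPolynomial σ K) x = 0 := by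
    ext T S
    simp [blk, Mat]
  simp [this]

theorem mu_sum {ι : Type*} (s : Finset ι) (f : ι → MvPolynomial σ K) :
    mu l lam R (∑ i ∈ s, f i) ≤ ∑ i ∈ s, mu l lam R (f i) := by
  classical
  induction s using Finset.induction_on with
  | empty => simp [mu_zero]
  | insert a s ha ih =>
    rw [Finset.sum_insert ha, Finset.sum_insert ha]
    exact le_trans (mu_add _ _ _ _ _) (by linarith)

omit [DecidableEq σ] in
theorem count_bound (P : ℤ → Finset σ → Prop) [∀ x U, Decidable (P x U)] (y : ℝ)
    (hP : ∀ x U, P x U → lam * x ≤ lam * LS l U - lam * y) :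
    ∑ x ∈ R, Real.exp (lam * x) * ((univ.filter fun U => P x U).card : ℝ) ≤
      R.card * Z0 l lam * Real.exp (-(lam * y)) := by
  have h1 : ∀ x ∈ R, Real.exp (lam * x) * ((univ.filter fun U => P x U).card : ℝ) ≤
      Z0 l lam * Real.exp (-(lam * y)) := by
    intro x _
    rw [Z0, Finset.sum_mul, Finset.card_filter]
    push_cast
    rw [Finset.mul_sum]
    refine Finset.sum_le_sum fun U _ => ?_
    split_ifs with h
    · rw [mul_one, ← Real.exp_add]
      exact Real.exp_le_exp.mpr (by linarith [hP x U h])
    · rw [mul_zero]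
      positivity
  refine le_trans (Finset.sum_le_sum h1) ?_
  rw [Finset.sum_const, nsmul_eq_mul, mul_assoc]

theorem mu_hi (hlam : 0 ≤ lam) (g h : MvPolynomial σ K) (y : ℝ)
    (hg : ∀ m, coeff m g ≠ 0 → y ≤ Lm l m) :
    mu l lam R (g * h) ≤ R.card * Z0 l lam * Real.exp (-(lam * y)) := by
  classical
  refine le_trans ?_ (count_bound l lam R (fun x U => (x : ℝ) + y ≤ LS l U) y ?_)
  · refine Finset.sum_le_sum fun x _ => ?_
    refine mul_le_mul_of_nonneg_left ?_ (Real.exp_pos _).le
    set A : Matrix (Finset σ) (Finset σ) K :=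
      Matrix.of fun T U => if LS l T = x then Mat h T U else 0 with hA
    set B : Matrix (Finset σ) (Finset σ) K :=
      Matrix.of fun U S => if LS l S = x then Mat g U S else 0 with hB
    have e : blk l (g * h) x = A * B := by
      ext T S
      rw [mul_comm g h]
      simp only [blk, Mat_mul, Matrix.of_apply, Matrix.mul_apply, hA, hB]
      by_cases h1 : LS l T = x <;> by_cases h2 : LS l S = x <;> simp [h1, h2]
    rw [e]
    have h1 : B.rank ≤ (univ.filter fun U : Finset σ => (x : ℝ) + y ≤ LS l U).card := by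
      apply Matrix.rank_le_card_of_support_subset
      intro U hU
      obtain ⟨S, hS⟩ := Function.ne_iff.mp hU
      have hS' : B U S ≠ 0 := hS
      simp only [hB, Matrix.of_apply] at hS'
      split_ifs at hS' with h2
      · obtain ⟨m, hm, hm2⟩ := Mat_ne_zero hS'
        have h3 := congrArg (Lm l) hm2
        rw [Lm_add, Lm_ind, Lm_ind, h2] at h3
        have h4 := hg m hm
        simp only [Finset.coe_filter, Finset.mem_univ, true_and, Set.mem_ofPred_eq]
        rw [h3]
        push_cast
        linarith
      · exact absurd rfl hS'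
    exact_mod_cast le_trans (Matrix.rank_mul_le_right A B) h1
  · intro x U hxU
    nlinarith

theorem mu_lo (hlam : 0 ≤ lam) (g h : MvPolynomial σ K) (y : ℝ)
    (hg : ∀ m, coeff m g ≠ 0 → (Lm l m : ℝ) ≤ -y) :
    mu l lam R (g * h) ≤ R.card * Z0 l lam * Real.exp (-(lam * y)) := by
  classical
  refine le_trans ?_ (count_bound l lam R (fun x U => (x : ℝ) + y ≤ LS l U) y ?_)
  · refine Finset.sum_le_sum fun x _ => ?_
    refine mul_le_mul_of_nonneg_left ?_ (Real.exp_pos _).le
    set A : Matrix (Finset σ) (Finset σ) K :=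
      Matrix.of fun T U => if LS l T = x then Mat g T U else 0 with hA
    set B : Matrix (Finset σ) (Finset σ) K :=
      Matrix.of fun U S => if LS l S = x ∧ (x : ℝ) + y ≤ LS l U then Mat h U S else 0 with hB
    have e : blk l (g * h) x = A * B := by
      ext T S
      simp only [blk, Mat_mul, Matrix.of_apply, Matrix.mul_apply, hA, hB]
      by_cases h1 : LS l T = x <;> by_cases h2 : LS l S = x <;> simp only [h1, h2] <;> simp
      refine Finset.sum_congr rfl fun U _ => ?_
      split_ifs with h3
      · rfl
      · by_cases h4 : Mat g T U = 0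
        · simp [h4]
        · exfalso
          apply h3
          obtain ⟨m, hm, hm2⟩ := Mat_ne_zero h4
          have h5 := congrArg (Lm l) hm2
          rw [Lm_add, Lm_ind, Lm_ind, h1] at h5
          have h6 := hg m hm
          rw [h5]
          push_cast
          linarith
    rw [e]
    have h1 : B.rank ≤ (univ.filter fun U : Finset σ => (x : ℝ) + y ≤ LS l U).card := by
      apply Matrix.rank_le_card_of_support_subset
      intro U hU
      obtain ⟨S, hS⟩ := Function.ne_iff.mp hU
      have hS' : B U S ≠ 0 := hS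
      simp only [hB, Matrix.of_apply] at hS'
      split_ifs at hS' with h2
      · simp only [Finset.coe_filter, Finset.mem_univ, true_and, Set.mem_ofPred_eq]
        exact h2.2
      · exact absurd rfl hS'
    exact_mod_cast le_trans (Matrix.rank_mul_le_right A B) h1
  · intro x U hxU
    nlinarith

end Vale.Agent.P346
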