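import Vale.Agent.P346.Mat
import Vale.Agent.P346.Defs

/-! The measure of a homogeneous depth-five circuit is small. -/

namespace Vale.Agent.P346

open Finset MvPolynomial

variable {σ K : Type*} [Fintype σ] [DecidableEq σ] [Field K]

/-- all monomials have weight at least `a` -/
def Hi (l : σ → ℤ) (a : ℝ) (f : MvPolynomial σ K) : Prop := ∀ m, coeff m f ≠ 0 → a ≤ Lm l m

/-- all monomials have weight at most `-b` -/
def Lo (l : σ → ℤ) (b : ℝ) (f : MvPolynomial σ K) : Prop :=
  ∀ m, coeff m f ≠ 0 → (Lm l m : ℝ) ≤ -b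

omit [Fintype σ] in
theorem exists_of_coeff_mul {f g : MvPolynomial σ K} {m : σ →₀ ℕ} (h : coeff m (f * g) ≠ 0) :
    ∃ a b, coeff a f ≠ 0 ∧ coeff b g ≠ 0 ∧ m = a + b := by
  rw [coeff_mul] at h
  obtain ⟨x, hx, hx2⟩ := Finset.exists_ne_zero_of_sum_ne_zero h
  refine ⟨x.1, x.2, left_ne_zero_of_mul hx2, right_ne_zero_of_mul hx2, ?_⟩
  have hx' : x.1 + x.2 = m := by simpa using hx
  exact hx'.symm

theorem Hi.mul {l : σ → ℤ} {a a' : ℝ} {f g : MvPolynomial σ K} (hf : Hi l a f) (hg : Hi l a' g) :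
    Hi l (a + a') (f * g) := by
  intro m hm
  obtain ⟨x, y, hx, hy, rfl⟩ := exists_of_coeff_mul hm
  rw [Lm_add]
  push_cast
  linarith [hf x hx, hg y hy]

theorem Lo.mul {l : σ → ℤ} {a a' : ℝ} {f g : MvPolynomial σ K} (hf : Lo l a f) (hg : Lo l a' g) :
    Lo l (a + a') (f * g) := by
  intro m hm
  obtain ⟨x, y, hx, hy, rfl⟩ := exists_of_coeff_mul hm
  rw [Lm_add]
  push_cast
  linarith [hf x hx, hg y hy]

theorem Hi_one (l : σ → ℤ) : Hi l 0 (1 : MvPolynomial σ K) := by
  intro m hm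
  rw [coeff_one] at hm
  split_ifs at hm with h
  · subst h
    simp [Lm_zero]
  · exact absurd rfl hm

theorem Lo_one (l : σ → ℤ) : Lo l 0 (1 : MvPolynomial σ K) := by
  intro m hm
  rw [coeff_one] at hm
  split_ifs at hm with h
  · subst h
    simp [Lm_zero]
  · exact absurd rfl hm

/-- the part of a polynomial on the monomials satisfying `P` -/
noncomputable def part (P : (σ →₀ ℕ) → Prop) [DecidablePred P] (g : MvPolynomial σ K) :
    MvPolynomial σ K := ∑ m ∈ g.support.filter P, monomial m (coeff m g)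

omit [Fintype σ] in
theorem coeff_part (P : (σ →₀ ℕ) → Prop) [DecidablePred P] (g : MvPolynomial σ K) (m : σ →₀ ℕ) :
    coeff m (part P g) = if P m then coeff m g else 0 := by
  rw [part, coeff_sum]
  simp only [coeff_monomial]
  rw [Finset.sum_ite_eq']
  by_cases h1 : P m <;> by_cases h2 : coeff m g = 0 <;> simp [h1, h2]

theorem split_hi_lo (l : σ → ℤ) (t : ℝ) (g : MvPolynomial σ K)
    (hg : ∀ m, coeff m g ≠ 0 → t ≤ |(Lm l m : ℝ)|) :
    ∃ gp gm, g = gp + gm ∧ Hi l t gp ∧ Lo l t gm := by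
  refine ⟨part (fun m => 0 ≤ Lm l m) g, part (fun m => ¬ 0 ≤ Lm l m) g, ?_, ?_, ?_⟩
  · ext m
    rw [coeff_add, coeff_part, coeff_part]
    split_ifs <;> simp
  · intro m hm
    rw [coeff_part] at hm
    split_ifs at hm with h
    · have h1 := hg m hm
      have h2 : (0 : ℝ) ≤ Lm l m := by exact_mod_cast h
      rwa [abs_of_nonneg h2] at h1
    · exact absurd rfl hm
  · intro m hm
    rw [coeff_part] at hm
    split_ifs at hm with h
    · exact absurd rfl hm
    · have h1 := hg m hm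
      have h2 : (Lm l m : ℝ) < 0 := by exact_mod_cast not_le.mp h
      rw [abs_of_neg h2] at h1
      linarith

variable (l : σ → ℤ) (lam : ℝ) (R : Finset ℤ)

/-- the invariant of the splitting argument -/
def PP (N t : ℝ) (f : MvPolynomial σ K) : Prop :=
  ∀ (H L h : MvPolynomial σ K) (a b : ℝ), Hi l a H → Lo l b L →
    mu l lam R (H * L * f * h) ≤ N * (R.card * Z0 l lam) * Real.exp (-(lam * (a + b + t) / 2))

variable {l lam R}

theorem PP_one (hlam : 0 ≤ lam) : PP l lam R 1 0 (1 : MvPolynomial σ K) := by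
  intro H L h a b hH hL
  have hC : 0 ≤ R.card * Z0 l lam := mul_nonneg (Nat.cast_nonneg _) (Z0_pos l lam).le
  rw [one_mul]
  rcases le_total a b with hab | hab
  · have e : H * L * 1 * h = L * (H * h) := by ring
    rw [e]
    refine le_trans (mu_lo l lam R hlam L _ b hL) ?_
    refine mul_le_mul_of_nonneg_left (Real.exp_le_exp.mpr ?_) hC
    nlinarith
  · have e : H * L * 1 * h = H * (L * h) := by ring
    rw [e]
    refine le_trans (mu_hi l lam R hlam H _ a hH) ?_
    refine mul_le_mul_of_nonneg_left (Real.exp_le_exp.mpr ?_) hC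
    nlinarith

theorem PP.step {N t t' : ℝ} {f g : MvPolynomial σ K} (hf : PP l lam R N t f)
    (hg : ∀ m, coeff m g ≠ 0 → t' ≤ |(Lm l m : ℝ)|) : PP l lam R (2 * N) (t + t') (g * f) := by
  intro H L h a b hH hL
  obtain ⟨gp, gm, rfl, hp, hm⟩ := split_hi_lo l t' g hg
  have e : H * L * ((gp + gm) * f) * h = (H * gp) * L * f * h + H * (L * gm) * f * h := by ring
  rw [e]
  refine le_trans (mu_add l lam R _ _) ?_
  have h1 := hf (H * gp) L h (a + t') b (hH.mul hp) hL
  have h2 := hf H (L * gm) h a (b + t') hH (hL.mul hm)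
  have e1 : a + t' + b + t = a + b + (t + t') := by ring
  have e2 : a + (b + t') + t = a + b + (t + t') := by ring
  rw [e1] at h1
  rw [e2] at h2
  linarith

theorem PP.mono {N N' t : ℝ} {f : MvPolynomial σ K} (hf : PP l lam R N t f) (hN : N ≤ N') :
    PP l lam R N' t f := by
  intro H L h a b hH hL
  refine le_trans (hf H L h a b hH hL) ?_
  have hC : 0 ≤ R.card * Z0 l lam := mul_nonneg (Nat.cast_nonneg _) (Z0_pos l lam).le
  gcongr

theorem PP.final {N t : ℝ} {f : MvPolynomial σ K} (hf : PP l lam R N t f) (h : MvPolynomial σ K) :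
    mu l lam R (f * h) ≤ N * (R.card * Z0 l lam) * Real.exp (-(lam * t / 2)) := by
  have := hf 1 1 h 0 0 (Hi_one l) (Lo_one l)
  simpa using this

theorem merge (hlam : 0 ≤ lam) {ι : Type*} (val : ι → MvPolynomial σ K) (deg : ι → ℕ)
    (τ : ℕ) (hτ : 1 ≤ τ) (κ : ℝ)
    (hκ : ∀ m : σ →₀ ℕ, m.degree + 1 ≤ 2 * τ → κ * m.degree ≤ |(Lm l m : ℝ)|)
    (s : Multiset ι) (hs : ∀ i ∈ s, (val i).IsHomogeneous (deg i) ∧ deg i ≤ τ) :
    ∀ (g0 : MvPolynomial σ K) (d0 : ℕ), g0.IsHomogeneous d0 → d0 < τ →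
      PP l lam R (2 ^ ((d0 + (s.map deg).sum) / τ + 1)) (κ * (d0 + (s.map deg).sum : ℕ))
        (g0 * (s.map val).prod) := by
  have key : ∀ (g : MvPolynomial σ K) (d : ℕ), g.IsHomogeneous d → d + 1 ≤ 2 * τ →
      ∀ m, coeff m g ≠ 0 → κ * d ≤ |(Lm l m : ℝ)| := by
    intro g d hg hd m hm
    have : m.degree = d := by
      by_contra h
      exact hm (hg.coeff_eq_zero h)
    rw [← this]
    exact hκ m (by omega)
  induction s using Multiset.induction_on with
  | empty =>
    intro g0 d0 hg hd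
    have h := (PP_one (l := l) (R := R) (K := K) hlam).step (key g0 d0 hg (by omega))
    simp only [Multiset.map_zero, Multiset.sum_zero, add_zero, Multiset.prod_zero]
    rw [zero_add] at h
    refine h.mono ?_
    rw [mul_one, pow_succ]
    have : (1 : ℝ) ≤ 2 ^ (d0 / τ) := one_le_pow₀ (by norm_num)
    linarith
  | cons a s ih =>
    intro g0 d0 hg hd
    have ih' := ih (fun i hi => hs i (Multiset.mem_cons_of_mem hi))
    obtain ⟨ha1, ha2⟩ := hs a (Multiset.mem_cons_self a s)
    simp only [Multiset.map_cons, Multiset.sum_cons, Multiset.prod_cons]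
    by_cases h : d0 + deg a < τ
    · have := ih' (g0 * val a) (d0 + deg a) (hg.mul ha1) h
      rw [← add_assoc, ← mul_assoc]
      exact this
    · have h1 := ih' 1 0 (isHomogeneous_one σ K) (by omega)
      have h2 := h1.step (key (g0 * val a) (d0 + deg a) (hg.mul ha1) (by omega))
      rw [one_mul, zero_add] at h2
      rw [← mul_assoc]
      have e : κ * ((s.map deg).sum : ℕ) + κ * ((d0 + deg a : ℕ) : ℝ)
          = κ * ((d0 + (deg a + (s.map deg).sum) : ℕ) : ℝ) := by
        push_cast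
        ring
      rw [e] at h2
      refine h2.mono ?_
      rw [← pow_succ']
      refine pow_le_pow_right₀ (by norm_num) ?_
      have : ((s.map deg).sum + τ) / τ ≤ (d0 + (deg a + (s.map deg).sum)) / τ :=
        Nat.div_le_div_right (by omega)
      rw [Nat.add_div_right _ (by omega)] at this
      omega

omit [DecidableEq σ] in
theorem Lm_two_types (p q : ℕ) (hl : ∀ v, l v = q ∨ l v = -p) (m : σ →₀ ℕ) :
    ∃ a b : ℕ, a + b = m.degree ∧ Lm l m = q * a - p * b := by
  classical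
  refine ⟨∑ v ∈ univ.filter (fun v => l v = q), m v,
    ∑ v ∈ univ.filter (fun v => ¬ l v = q), m v, ?_, ?_⟩
  · rw [Finset.sum_filter_add_sum_filter_not, Finsupp.degree_eq_sum]
  · rw [Lm, ← Finset.sum_filter_add_sum_filter_not univ (fun v => l v = q)]
    push_cast
    rw [Finset.mul_sum, Finset.mul_sum, sub_eq_add_neg, ← Finset.sum_neg_distrib]
    congr 1
    · refine Finset.sum_congr rfl fun v hv => ?_
      rw [(Finset.mem_filter.mp hv).2, mul_comm]
    · refine Finset.sum_congr rfl fun v hv => ?_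
      have h1 := (Finset.mem_filter.mp hv).2
      rcases hl v with h | h
      · exact absurd h h1
      · rw [h]
        ring

omit [DecidableEq σ] in
theorem kappa_small (q J τ : ℕ) (hl : ∀ v, l v = q ∨ l v = -((q + J : ℕ) : ℤ))
    (hτ : 2 * τ * J ≤ q) (m : σ →₀ ℕ) (hm : m.degree + 1 ≤ 2 * τ) :
    (J / 2 : ℝ) * m.degree ≤ |(Lm l m : ℝ)| := by
  obtain ⟨a, b, hab, hL⟩ := Lm_two_types (q + J) q hl m
  rw [hL, ← hab]
  push_cast
  have h1 : ((a : ℝ) + b) * J ≤ q := by
    have : (a + b) * J ≤ q := le_trans (Nat.mul_le_mul_right _ (by omega)) hτ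
    exact_mod_cast this
  have hJ : (0 : ℝ) ≤ J := Nat.cast_nonneg _
  have hq : (0 : ℝ) ≤ q := Nat.cast_nonneg _
  have ha : (0 : ℝ) ≤ a := Nat.cast_nonneg _
  have hb : (0 : ℝ) ≤ b := Nat.cast_nonneg _
  rcases le_or_gt a b with h | h
  · have h' : (a : ℝ) ≤ b := by exact_mod_cast h
    refine le_trans ?_ (neg_le_abs _)
    nlinarith
  · have h' : (b : ℝ) + 1 ≤ a := by exact_mod_cast h
    refine le_trans ?_ (le_abs_self _)
    nlinarith

omit [DecidableEq σ] in
theorem kappa_lin (q J : ℕ) (hl : ∀ v, l v = q ∨ l v = -((q + J : ℕ) : ℤ))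
    (m : σ →₀ ℕ) (hm : m.degree + 1 ≤ 2 * 1) :
    (q : ℝ) * m.degree ≤ |(Lm l m : ℝ)| := by
  obtain ⟨a, b, hab, hL⟩ := Lm_two_types (q + J) q hl m
  rw [hL, ← hab]
  push_cast
  have hJ : (0 : ℝ) ≤ J := Nat.cast_nonneg _
  have hq : (0 : ℝ) ≤ q := Nat.cast_nonneg _
  have : (a = 0 ∧ b = 0) ∨ (a = 1 ∧ b = 0) ∨ (a = 0 ∧ b = 1) := by omega
  rcases this with ⟨rfl, rfl⟩ | ⟨rfl, rfl⟩ | ⟨rfl, rfl⟩
  · simp
  · simp
  · refine le_trans ?_ (neg_le_abs _)
    simp

namespace Circuit

variable (G : Circuit σ K)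

omit [Fintype σ] [DecidableEq σ] in
theorem hom0 (i : Fin G.n0) : (G.val0 i).IsHomogeneous (G.deg0 i) := by
  unfold val0 deg0
  cases G.leaf i with
  | inl v => exact isHomogeneous_X K v
  | inr a => exact isHomogeneous_C σ a

omit [Fintype σ] [DecidableEq σ] in
theorem hom_sum {ι : Type*} (s : Finset ι) (c : ι → K) (f : ι → MvPolynomial σ K) (d : ℕ)
    (h : ∀ i ∈ s, (f i).IsHomogeneous d) : (∑ i ∈ s, c i • f i).IsHomogeneous d := by
  refine IsHomogeneous.sum s _ d fun i hi => ?_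
  rw [smul_eq_C_mul]
  simpa using (isHomogeneous_C σ (c i)).mul (h i hi)

omit [Fintype σ] [DecidableEq σ] in
theorem hom_prod {ι : Type*} (s : Multiset ι) (f : ι → MvPolynomial σ K) (d : ι → ℕ)
    (h : ∀ i, (f i).IsHomogeneous (d i)) : ((s.map f).prod).IsHomogeneous (s.map d).sum := by
  induction s using Multiset.induction_on with
  | empty => simpa using isHomogeneous_one σ K
  | cons a s ih =>
    simp only [Multiset.map_cons, Multiset.sum_cons, Multiset.prod_cons]
    exact (h a).mul ih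

theorem mu_le (hlam : 0 ≤ lam) (q J τ n : ℕ) (hl : ∀ v, l v = q ∨ l v = -((q + J : ℕ) : ℤ))
    (hτ1 : 1 ≤ τ) (hτ : 2 * τ * J ≤ q) (β : ℝ)
    (hs : 2 ^ (n / τ + 1) * Real.exp (-(lam * (J / 2 * n) / 2)) ≤ β)
    (h1 : 2 * Real.exp (-(lam * q / 2)) ≤ 1)
    (hL : 2 * (2 * Real.exp (-(lam * q / 2))) ^ τ ≤ β)
    (hG : G.SynHom) (hn : G.value.IsHomogeneous n) (h0 : G.value ≠ 0) :
    mu l lam R G.value ≤ (G.size : ℝ) ^ 2 * (R.card * Z0 l lam) * β := by
  obtain ⟨d1, d3, d5, hd1, hd3, hd5⟩ := hG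
  have hC : 0 ≤ R.card * Z0 l lam := mul_nonneg (Nat.cast_nonneg _) (Z0_pos l lam).le
  have hβ : 0 ≤ β := le_trans (by positivity) hs
  have H1 : ∀ j, (G.val1 j).IsHomogeneous (d1 j) := fun j =>
    hom_sum _ _ _ _ fun i hi => hd1 j i hi ▸ G.hom0 i
  have H3 : ∀ j, (G.val3 j).IsHomogeneous (d3 j) := fun j =>
    hom_sum _ _ _ _ fun i hi => hd3 j i hi ▸ hom_prod _ _ _ H1
  have H5 : G.value.IsHomogeneous d5 :=
    hom_sum _ _ _ _ fun i hi => hd5 i hi ▸ hom_prod _ _ _ H3
  have e5 : d5 = n := H5.inj_right hn h0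
  subst e5
  have hlin : ∀ (k : Fin G.n2) (h : MvPolynomial σ K), τ ≤ ((G.in2 k).map d1).sum →
      mu l lam R (G.val2 k * h) ≤ (R.card * Z0 l lam) * β := by
    intro k h hk
    by_cases hz : ∀ j ∈ G.in2 k, d1 j ≤ 1
    · have h2 := merge (l := l) (R := R) hlam G.val1 d1 1 le_rfl q (kappa_lin q J hl) (G.in2 k)
        (fun j hj => ⟨H1 j, hz j hj⟩) 1 0 (isHomogeneous_one σ K) (by omega)
      have h3 := h2.final h
      rw [one_mul, zero_add, Nat.div_one] at h3
      refine le_trans h3 ?_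
      set D := ((G.in2 k).map d1).sum with hD
      have e : Real.exp (-(lam * (q * (D : ℝ)) / 2)) = Real.exp (-(lam * q / 2)) ^ D := by
        rw [← Real.exp_nat_mul]
        congr 1
        ring
      have h4 : (2 * Real.exp (-(lam * q / 2))) ^ D ≤ (2 * Real.exp (-(lam * q / 2))) ^ τ :=
        pow_le_pow_of_le_one (by positivity) h1 hk
      rw [e]
      calc 2 ^ (D + 1) * (R.card * Z0 l lam) * Real.exp (-(lam * q / 2)) ^ D
          = (R.card * Z0 l lam) * (2 * (2 * Real.exp (-(lam * q / 2))) ^ D) := by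
            rw [mul_pow]; ring
        _ ≤ _ := by
            refine mul_le_mul_of_nonneg_left ?_ hC
            linarith
    · push Not at hz
      obtain ⟨j, hj, hj2⟩ := hz
      have h2 : G.val1 j = 0 := by
        unfold val1
        refine Finset.sum_eq_zero fun i hi => ?_
        exfalso
        have h3 := hd1 j i hi
        have h4 : G.deg0 i ≤ 1 := by
          unfold deg0
          cases G.leaf i <;> simp
        omega
      have h3 : G.val2 k = 0 := by
        unfold val2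
        exact Multiset.prod_eq_zero (Multiset.mem_map.mpr ⟨j, hj, h2⟩)
      rw [h3, zero_mul, mu_zero]
      positivity
  have htop : ∀ i ∈ G.in5, mu l lam R (G.c5 i • G.val4 i) ≤
      (G.n2 + 1 : ℝ) * ((R.card * Z0 l lam) * β) := by
    intro i hi
    refine le_trans (mu_smul _ _ _ _ _) ?_
    by_cases hz : ∀ j ∈ G.in4 i, d3 j ≤ τ
    · have h2 := merge (l := l) (R := R) hlam G.val3 d3 τ hτ1 (J / 2)
        (kappa_small q J τ hl hτ) (G.in4 i)
        (fun j hj => ⟨H3 j, hz j hj⟩) 1 0 (isHomogeneous_one σ K) (by omega)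
      have h3 := h2.final 1
      rw [one_mul, zero_add, mul_one, hd5 i hi] at h3
      refine le_trans h3 ?_
      have h4 : (2 : ℝ) ^ (d5 / τ + 1) * (R.card * Z0 l lam) *
          Real.exp (-(lam * (J / 2 * d5) / 2)) ≤ (R.card * Z0 l lam) * β := by
        rw [mul_right_comm, mul_comm]
        exact mul_le_mul_of_nonneg_left hs hC
      refine le_trans h4 ?_
      have : (0 : ℝ) ≤ G.n2 := Nat.cast_nonneg _
      have : 0 ≤ (R.card * Z0 l lam) * β := by positivity
      nlinarith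
    · push Not at hz
      obtain ⟨j, hj, hj2⟩ := hz
      obtain ⟨s, hs⟩ := Multiset.exists_cons_of_mem hj
      have e : G.val4 i = ∑ k ∈ G.in3 j, G.c3 j k • (G.val2 k * (s.map G.val3).prod) := by
        unfold val4
        rw [hs, Multiset.map_cons, Multiset.prod_cons]
        conv_lhs => rw [val3]
        rw [Finset.sum_mul]
        simp only [smul_mul_assoc]
      rw [e]
      refine le_trans (mu_sum _ _ _ _ _) ?_
      have h2 : ∀ k ∈ G.in3 j, mu l lam R (G.c3 j k • (G.val2 k * (s.map G.val3).prod)) ≤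
          (R.card * Z0 l lam) * β := fun k hk =>
        le_trans (mu_smul _ _ _ _ _) (hlin k _ (by rw [hd3 j k hk]; omega))
      refine le_trans (Finset.sum_le_sum h2) ?_
      rw [Finset.sum_const, nsmul_eq_mul]
      refine mul_le_mul_of_nonneg_right ?_ (by positivity)
      have : (G.in3 j).card ≤ G.n2 := by simpa using Finset.card_le_univ (G.in3 j)
      have : ((G.in3 j).card : ℝ) ≤ G.n2 := by exact_mod_cast this
      linarith
  unfold value
  refine le_trans (mu_sum _ _ _ _ _) (le_trans (Finset.sum_le_sum htop) ?_)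
  rw [Finset.sum_const, nsmul_eq_mul, ← mul_assoc, mul_assoc ((G.size : ℝ) ^ 2)]
  refine mul_le_mul_of_nonneg_right ?_ (by positivity)
  have h2 : G.in5.card ≤ G.size := by
    have : G.in5.card ≤ G.n4 := by simpa using Finset.card_le_univ G.in5
    unfold size
    omega
  have h3 : G.n2 + 1 ≤ G.size := by
    unfold size
    omega
  have h4 : G.in5.card * (G.n2 + 1) ≤ G.size ^ 2 := by
    rw [sq]
    exact Nat.mul_le_mul h2 h3
  exact_mod_cast h4

end Circuit

end Vale.Agent.P346
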