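import Vale.Agent.P346.Lower2
import Vale.Agent.P346.Upper

/-! Choice of parameters: the lower bound on circuit size. -/

namespace Vale.Agent.P346

open Finset MvPolynomial

/-- heights of a Christoffel word -/
def hgt (p n : ℕ) (i : ℕ) : ℤ := ((p * i) % n : ℕ)

theorem hgt_step (q J n : ℕ) (hn : q + (q + J) = n) (hq : 0 < q) (i : ℕ) :
    hgt (q + J) n i - hgt (q + J) n (i + 1) = q ∨
      hgt (q + J) n i - hgt (q + J) n (i + 1) = -((q + J : ℕ) : ℤ) := by
  unfold hgt
  have h1 : (q + J) * i % n < n := Nat.mod_lt _ (by omega)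
  have h2 : (q + J) * (i + 1) % n = ((q + J) * i % n + (q + J)) % n := by
    rw [mul_add, mul_one, Nat.mod_add_mod]
  rw [h2]
  generalize (q + J) * i % n = a at *
  by_cases h : a + (q + J) < n
  · right
    rw [Nat.mod_eq_of_lt h]
    push_cast
    ring
  · left
    rw [Nat.mod_eq_sub_mod (by omega), Nat.mod_eq_of_lt (by omega)]
    omega

theorem LS_mem {σ : Type*} [Fintype σ] (l : σ → ℤ) (B : ℕ) (hl : ∀ v, |l v| ≤ B) (S : Finset σ) :
    LS l S ∈ Finset.Icc (-((Fintype.card σ * B : ℕ) : ℤ)) ((Fintype.card σ * B : ℕ) : ℤ) := by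
  rw [Finset.mem_Icc, ← abs_le]
  refine le_trans (Finset.abs_sum_le_sum_abs _ _) ?_
  refine le_trans (Finset.sum_le_sum fun v _ => hl v) ?_
  rw [Finset.sum_const, nsmul_eq_mul]
  push_cast
  refine mul_le_mul_of_nonneg_right ?_ (Nat.cast_nonneg _)
  exact_mod_cast Finset.card_le_univ S

set_option maxHeartbeats 1000000 in
theorem size_lower (n : ℕ) (hn : 16384 ^ 2 ≤ n) (hL : 43008 ≤ Real.log n)
    (K : Type*) [Field K] [CharZero K] (G : Circuit (Fin n × Fin n × Fin n) K)
    (hG : G.SynHom) (hv : G.value = IMM K n n) :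
    (n : ℝ) ^ (1 / 2048 * Real.sqrt n) ≤ G.size := by
  set r := Nat.sqrt n with hr
  have hr1 : r * r ≤ n := Nat.sqrt_le n
  have hr2 : n < (r + 1) * (r + 1) := Nat.lt_succ_sqrt n
  have hr3 : 16384 ≤ r := by
    rw [hr, Nat.le_sqrt']
    exact hn
  have hrn : 16384 * r ≤ n := le_trans (Nat.mul_le_mul_right _ hr3) hr1
  set q := (n - r) / 2 with hq
  set J := n - 2 * q with hJ
  set τ := r / 8 with hτ
  have hsum : q + (q + J) = n := by omega
  have hJ1 : r ≤ J := by omega
  have hJ2 : J ≤ r + 1 := by omega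
  have hq4 : n ≤ 4 * q := by omega
  have hτ1 : 1 ≤ τ := by omega
  have hτ2 : 2 * τ * J ≤ q := by
    have h1 : 8 * τ ≤ r := by omega
    have h2 : 8 * τ * J ≤ r * (r + 1) := Nat.mul_le_mul h1 hJ2
    have h3 : 2 * q + r + 1 ≥ n := by omega
    nlinarith
  have hnR : (0 : ℝ) < n := by
    have : 0 < n := by omega
    exact_mod_cast this
  set L := Real.log n with hLdef
  set s := Real.sqrt n with hs
  have hss : s * s = n := Real.mul_self_sqrt hnR.le
  have hs0 : 0 ≤ s := Real.sqrt_nonneg _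
  have hrs : (r : ℝ) ≤ s := by
    rw [hs]
    refine Real.le_sqrt_of_sq_le ?_
    rw [sq]
    exact_mod_cast hr1
  have hsr : s ≤ r + 1 := by
    rw [hs, Real.sqrt_le_left (by positivity), sq]
    exact_mod_cast hr2.le
  have hr3' : (16384 : ℝ) ≤ r := by exact_mod_cast hr3
  set lam := L / (2 * n) with hlam
  have hlam0 : 0 ≤ lam := by positivity
  have hexp : Real.exp (L / 2) = s := by
    rw [hs, Real.sqrt_eq_rpow, Real.rpow_def_of_pos hnR]
    congr 1
    ring
  set h := hgt (q + J) n with hh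
  have hl : ∀ v : Fin n × Fin n × Fin n, lw h v = q ∨ lw h v = -((q + J : ℕ) : ℤ) := fun v =>
    hgt_step q J n hsum (by omega) v.1
  have hlB : ∀ v : Fin n × Fin n × Fin n, |lw h v| ≤ n := by
    intro v
    rcases hl v with h1 | h1 <;> rw [h1, abs_le] <;> constructor <;> omega
  set R := Finset.Icc (-((Fintype.card (Fin n × Fin n × Fin n) * n : ℕ) : ℤ))
    ((Fintype.card (Fin n × Fin n × Fin n) * n : ℕ) : ℤ) with hR
  have hRc : (R.card : ℝ) ≤ 3 * (n : ℝ) ^ 4 := by
    have h1 : R.card = 2 * n ^ 4 + 1 := by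
      rw [hR, Int.card_Icc]
      simp only [Fintype.card_prod, Fintype.card_fin]
      have : n * (n * n) * n = n ^ 4 := by ring
      rw [this]
      omega
    have h2 : 1 ≤ n ^ 4 := Nat.one_le_pow _ _ (by omega)
    have h3 : R.card ≤ 3 * n ^ 4 := by omega
    exact_mod_cast h3
  have low := mu_IMM_lower (w := n) (d := n) K lam s h (by simp [hh, hgt])
    (fun i => Real.one_le_exp (mul_nonneg hlam0 (by simp only [hh, hgt]; positivity)))
    (fun i => by
      rw [← hexp]
      refine Real.exp_le_exp.mpr ?_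
      have h1 : ((h i : ℤ) : ℝ) ≤ n := by
        simp only [hh, hgt, Int.cast_natCast]
        exact_mod_cast (Nat.mod_lt _ (by omega)).le
      calc lam * h i ≤ lam * n := mul_le_mul_of_nonneg_left h1 hlam0
        _ = L / 2 := by rw [hlam]; field_simp)
    (by nlinarith) R (LS_mem _ n hlB)
  have hZ0 : 0 < Z0 (σ := Fin n × Fin n × Fin n) (lw h) lam := Z0_pos _ _
  have hne : G.value ≠ 0 := by
    intro h0
    rw [← hv, h0, mu_zero, zero_mul] at low
    linarith
  have hτs : s / 16 ≤ τ := by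
    have h1 : r ≤ 8 * τ + 7 := by omega
    have h2 : (r : ℝ) ≤ 8 * τ + 7 := by exact_mod_cast h1
    linarith
  have hq16 : L / 16 ≤ lam * q / 2 := by
    have h1 : (n : ℝ) ≤ 4 * q := by exact_mod_cast hq4
    rw [hlam, div_mul_eq_mul_div, div_div, div_le_div_iff₀ (by norm_num) (by positivity)]
    nlinarith
  have h2e : (2 : ℝ) ≤ Real.exp 1 := by linarith [Real.add_one_le_exp (1 : ℝ)]
  have hlin : 2 * Real.exp (-(lam * q / 2)) ≤ Real.exp (-(L / 32)) := by
    calc 2 * Real.exp (-(lam * q / 2)) ≤ Real.exp 1 * Real.exp (-(lam * q / 2)) := by gcongr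
      _ = Real.exp (1 - lam * q / 2) := by rw [← Real.exp_add]; rfl
      _ ≤ _ := Real.exp_le_exp.mpr (by linarith)
  have up := G.mu_le (l := lw h) (R := R) hlam0 q J τ n hl hτ1 hτ2
    (Real.exp (16 * s + 1 - s * L / 512))
    (by
      have h1 : ((n / τ : ℕ) : ℝ) ≤ 16 * s := by
        refine le_trans Nat.cast_div_le ?_
        rw [div_le_iff₀ (by positivity)]
        nlinarith
      have h2 : (2 : ℝ) ^ (n / τ + 1) ≤ Real.exp (16 * s + 1) := by
        calc (2 : ℝ) ^ (n / τ + 1) ≤ Real.exp 1 ^ (n / τ + 1) := pow_le_pow_left₀ (by norm_num) h2e _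
          _ = Real.exp ((n / τ + 1 : ℕ) * 1) := by rw [Real.exp_nat_mul]
          _ ≤ _ := Real.exp_le_exp.mpr (by push_cast; linarith)
      have h3 : lam * (J / 2 * n) / 2 = J * L / 8 := by
        rw [hlam]; field_simp; ring
      have h4 : (r : ℝ) ≤ J := by exact_mod_cast hJ1
      rw [h3, sub_eq_add_neg, Real.exp_add]
      refine mul_le_mul h2 (Real.exp_le_exp.mpr ?_) (Real.exp_pos _).le (Real.exp_pos _).le
      nlinarith)
    (le_trans hlin (Real.exp_le_one_iff.mpr (by linarith)))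
    (by
      calc 2 * (2 * Real.exp (-(lam * q / 2))) ^ τ
          ≤ Real.exp 1 * Real.exp (-(L / 32)) ^ τ := by gcongr
        _ = Real.exp (1 + τ * -(L / 32)) := by rw [Real.exp_add, Real.exp_nat_mul]
        _ ≤ _ := Real.exp_le_exp.mpr (by nlinarith))
    hG (hv ▸ IMM_hom K) hne
  rw [hv] at up
  have hpow : (1 + 4 * s / n) ^ n ≤ Real.exp (4 * s) := by
    calc (1 + 4 * s / n) ^ n ≤ Real.exp (4 * s / n) ^ n := by
          refine pow_le_pow_left₀ (by positivity) ?_ _
          linarith [Real.add_one_le_exp (4 * s / n)]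
      _ = Real.exp (4 * s) := by
          rw [← Real.exp_nat_mul]
          congr 1
          field_simp
  have hpoly : (R.card : ℝ) * ((n : ℝ) ^ 2 * (4 * s)) ≤ Real.exp (8 * L) := by
    have h1 : Real.exp (8 * L) = (n : ℝ) ^ 8 := by
      have := Real.exp_nat_mul L 8
      rw [hLdef, Real.exp_log hnR] at this
      exact_mod_cast this
    rw [h1]
    have h2 : 12 * s ≤ (n : ℝ) ^ 2 := by
      rw [← hss]
      have : 1 ≤ s * s := by nlinarith
      nlinarith
    calc (R.card : ℝ) * ((n : ℝ) ^ 2 * (4 * s)) ≤ 3 * (n : ℝ) ^ 4 * ((n : ℝ) ^ 2 * (4 * s)) := by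
          gcongr
      _ = (n : ℝ) ^ 6 * (12 * s) := by ring
      _ ≤ (n : ℝ) ^ 6 * (n : ℝ) ^ 2 := by gcongr
      _ = _ := by ring
  set Z := Z0 (σ := Fin n × Fin n × Fin n) (lw h) lam with hZ
  have comb : Z ≤ Z * ((G.size : ℝ) ^ 2 * Real.exp (-(s * L / 1024))) := by
    calc Z ≤ mu (lw h) lam R (IMM K n n) * ((n : ℝ) ^ 2 * (4 * s) * (1 + 4 * s / n) ^ n) := low
      _ ≤ ((G.size : ℝ) ^ 2 * (R.card * Z) * Real.exp (16 * s + 1 - s * L / 512)) *
          ((n : ℝ) ^ 2 * (4 * s) * Real.exp (4 * s)) := by gcongr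
      _ = Z * ((G.size : ℝ) ^ 2 * ((R.card * ((n : ℝ) ^ 2 * (4 * s))) *
          (Real.exp (16 * s + 1 - s * L / 512) * Real.exp (4 * s)))) := by ring
      _ ≤ Z * ((G.size : ℝ) ^ 2 * (Real.exp (8 * L) *
          (Real.exp (16 * s + 1 - s * L / 512) * Real.exp (4 * s)))) := by gcongr
      _ ≤ _ := by
          rw [← Real.exp_add, ← Real.exp_add]
          gcongr
          nlinarith
  have comb2 : 1 ≤ (G.size : ℝ) ^ 2 * Real.exp (-(s * L / 1024)) :=
    (le_mul_iff_one_le_right hZ0).mp comb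
  rw [Real.rpow_def_of_pos hnR, ← hLdef]
  refine le_of_sq_le_sq ?_ (Nat.cast_nonneg _)
  rw [← Real.exp_nat_mul]
  have e : ((2 : ℕ) : ℝ) * (L * (1 / 2048 * s)) = s * L / 1024 := by
    push_cast
    ring
  rw [e]
  rw [Real.exp_neg, ← div_eq_mul_inv, le_div_iff₀ (Real.exp_pos _), one_mul] at comb2
  exact comb2

end Vale.Agent.P346
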