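import Mathlib

/-! Rank facts: subadditivity, base change in characteristic zero, the trace inequality. -/

namespace Vale.Agent.P346

open Matrix Finset

section basic
variable {m n K : Type*} [Fintype n] [Field K]

theorem rank_add_le' (A B : Matrix m n K) [Fintype m] : (A + B).rank ≤ A.rank + B.rank := by
  unfold Matrix.rank
  rw [Matrix.mulVecLin_add]
  refine le_trans (Submodule.finrank_mono (LinearMap.range_add_le _ _)) ?_
  exact Submodule.finrank_add_le_finrank_add_finrank _ _

theorem rank_smul_le' (c : K) (A : Matrix m n K) [Fintype m] : (c • A).rank ≤ A.rank := by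
  unfold Matrix.rank
  refine Submodule.finrank_mono ?_
  rintro _ ⟨v, rfl⟩
  refine ⟨c • v, ?_⟩
  simp [Matrix.smul_mulVec]

end basic

theorem rank_real_le {m n K : Type*} [Fintype m] [Fintype n] [Field K] [CharZero K]
    (A : Matrix m n ℕ) :
    (A.map (fun a : ℕ => (a : ℝ))).rank ≤ (A.map (fun a : ℕ => (a : K))).rank := by
  classical
  rw [rank_eq_finrank_span_cols, rank_eq_finrank_span_cols]
  obtain ⟨κ, a, ha, hsp, hli⟩ := exists_linearIndependent' ℝ (A.map (fun a : ℕ => (a : ℝ))).col
  have : Finite κ := Finite.of_injective a ha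
  have : Fintype κ := Fintype.ofFinite κ
  rw [← hsp, finrank_span_eq_card hli]
  set v : κ → m → ℚ := fun k i => (A i (a k) : ℚ) with hv
  have h1 : LinearIndependent ℝ (fun k => algebraMap ℚ ℝ ∘ v k) := by
    have e : (fun k => algebraMap ℚ ℝ ∘ v k) = (A.map (fun a : ℕ => (a : ℝ))).col ∘ a := by
      ext k i
      simp only [hv, Function.comp_apply, map_natCast]
      rfl
    rw [e]
    exact hli
  have h2 : LinearIndependent ℚ v := linearIndependent_algebraMap_comp_iff.mp h1
  have h3 : LinearIndependent K (fun k => algebraMap ℚ K ∘ v k) :=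
    linearIndependent_algebraMap_comp_iff.mpr h2
  set W := Submodule.span K (Set.range (A.map (fun a : ℕ => (a : K))).col) with hW
  have hmem : ∀ k, (algebraMap ℚ K ∘ v k) ∈ W := by
    intro k
    refine Submodule.subset_span ⟨a k, ?_⟩
    ext i
    simp [hv, Matrix.col]
  have h4 : LinearIndependent K (fun k => (⟨_, hmem k⟩ : W)) := by
    apply LinearIndependent.of_comp W.subtype
    exact h3
  exact h4.fintype_card_le_finrank

theorem trace_sq_le_rank {n : Type*} [Fintype n] [DecidableEq n] (B : Matrix n n ℝ)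
    (hB : B.IsHermitian) : B.trace ^ 2 ≤ B.rank * (B * B).trace := by
  have h1 : B.trace = ∑ i, hB.eigenvalues i := by
    simpa using hB.trace_eq_sum_eigenvalues
  have h2 : (B * B).trace = ∑ i, hB.eigenvalues i ^ 2 := by
    have hs := hB.spectral_theorem
    have : B * B = Unitary.conjStarAlgAut ℝ _ hB.eigenvectorUnitary
        (diagonal (RCLike.ofReal ∘ hB.eigenvalues) * diagonal (RCLike.ofReal ∘ hB.eigenvalues)) := by
      rw [map_mul, ← hs]
    rw [this, Unitary.conjStarAlgAut_apply, Matrix.trace_mul_comm, ← Matrix.mul_assoc]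
    simp [Matrix.diagonal_mul_diagonal, sq]
  have h3 : B.rank = (univ.filter fun i => hB.eigenvalues i ≠ 0).card := by
    rw [hB.rank_eq_card_non_zero_eigs, Fintype.card_subtype]
  rw [h1, h2, h3]
  have h4 : ∑ i, hB.eigenvalues i = ∑ i ∈ univ.filter (fun i => hB.eigenvalues i ≠ 0),
      hB.eigenvalues i := by
    rw [Finset.sum_filter_ne_zero]
  have h5 : ∑ i ∈ univ.filter (fun i => hB.eigenvalues i ≠ 0), hB.eigenvalues i ^ 2
      ≤ ∑ i, hB.eigenvalues i ^ 2 :=
    Finset.sum_le_sum_of_subset_of_nonneg (Finset.filter_subset _ _) (fun _ _ _ => sq_nonneg _)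
  rw [h4]
  refine le_trans sq_sum_le_card_mul_sum_sq ?_
  exact mul_le_mul_of_nonneg_left h5 (Nat.cast_nonneg _)

theorem frob_sq_le_rank {m n : Type*} [Fintype m] [Fintype n] [DecidableEq n]
    (A : Matrix m n ℝ) :
    (∑ s, ∑ t, A t s * A t s) ^ 2 ≤
      A.rank * ∑ s, ∑ s', ∑ t, ∑ t', A t s * A t s' * (A t' s * A t' s') := by
  have hB : (Aᵀ * A).IsHermitian := by
    have := Matrix.isHermitian_conjTranspose_mul_self A
    simpa [Matrix.conjTranspose_eq_transpose_of_trivial] using this
  have h := trace_sq_le_rank (Aᵀ * A) hB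
  rw [Matrix.rank_transpose_mul_self] at h
  convert h using 2
  · simp [Matrix.trace, Matrix.mul_apply]
  · simp only [Matrix.trace, Matrix.diag_apply, Matrix.mul_apply, Matrix.transpose_apply]
    refine Finset.sum_congr rfl fun s _ => Finset.sum_congr rfl fun s' _ => ?_
    rw [Finset.sum_mul_sum]
    refine Finset.sum_congr rfl fun t _ => Finset.sum_congr rfl fun t' _ => ?_
    ring

end Vale.Agent.P346
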